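import Vale.Agent.P181.S10.Spec
import Vale.Agent.P181.T7.Last
import Vale.Agent.P181.H530.Pad
import Vale.Agent.P181.H530.Zero

/-!
# P181, S10: the glue of the general form
-/

set_option autoImplicit false

namespace Vale.Agent.P181.H59

open Vale.Agent.P181 Vale.Agent.P181.H280 Vale.Agent.P181.T7 Vale.Agent.P181.S10

/-- All numbers of rows from the case of `a` rows, with a lower bound for a sum over the rows. -/
theorem all_n_sum {a b : ℕ} (f : ℕ → ℕ) (hf : f 0 = 0) {Y : ℝ}
    (h : ∀ lam : Fin a → ℕ, Antitone lam → ∑ i, lam i = a * b → Y ≤ ∑ i, (f (lam i) : ℝ) →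
      plethMult a b a lam ≤ plethMult b a a lam) (n : ℕ) (lam : Fin n → ℕ)
    (hY : Y ≤ ∑ i, (f (lam i) : ℝ)) :
    plethMult a b n lam ≤ plethMult b a n lam := by
  have hP : PadStmt := H530.pad_stmt
  have hZ : ZeroStmt := H530.zero_stmt
  by_cases h0 : plethMult a b n lam = 0
  · rw [h0]
    exact Nat.zero_le _
  · obtain ⟨hanti, hsum, hz⟩ := hZ a b n lam h0
    rcases Nat.le_total n a with hna | hna
    · obtain ⟨k, rfl⟩ := Nat.exists_eq_add_of_le hna
      rw [← hP (n + k) b n k lam, ← hP b (n + k) n k lam]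
      have hval1 : ∀ i : Fin n, (if h : ((Fin.castAdd k i : Fin (n + k)) : ℕ) < n then
            lam ⟨(Fin.castAdd k i : Fin (n + k)), h⟩ else 0) = lam i := by
        intro i
        rw [dif_pos (by simp)]
        congr 1
      have hval2 : ∀ i : Fin k, (if h : ((Fin.natAdd n i : Fin (n + k)) : ℕ) < n then
            lam ⟨(Fin.natAdd n i : Fin (n + k)), h⟩ else 0) = 0 := by
        intro i
        rw [dif_neg (by simp)]
      apply h
      · intro i j hij
        have hij' : (i : ℕ) ≤ j := hij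
        dsimp only
        split_ifs with h1 h2 h2
        · exact hanti (show (⟨i, h2⟩ : Fin n) ≤ ⟨j, h1⟩ from hij')
        · omega
        · exact Nat.zero_le _
        · exact le_rfl
      · rw [Fin.sum_univ_add]
        rw [Finset.sum_congr rfl fun i _ => hval1 i, Finset.sum_congr rfl fun i _ => hval2 i,
          Finset.sum_const_zero, add_zero, hsum]
      · refine hY.trans (le_of_eq ?_)
        rw [Fin.sum_univ_add]
        have h1 : ∑ i : Fin n, ((f (if h : ((Fin.castAdd k i : Fin (n + k)) : ℕ) < n then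
            lam ⟨(Fin.castAdd k i : Fin (n + k)), h⟩ else 0) : ℕ) : ℝ) =
            ∑ i, ((f (lam i) : ℕ) : ℝ) :=
          Finset.sum_congr rfl fun i _ => by rw [hval1 i]
        rw [h1]
        have h2 : ∑ i : Fin k, ((f (if h : ((Fin.natAdd n i : Fin (n + k)) : ℕ) < n then
            lam ⟨(Fin.natAdd n i : Fin (n + k)), h⟩ else 0) : ℕ) : ℝ) = 0 := by
          apply Finset.sum_eq_zero
          intro i _
          rw [hval2 i, hf, Nat.cast_zero]
        rw [h2, add_zero]
    · obtain ⟨k, rfl⟩ := Nat.exists_eq_add_of_le hna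
      set mu : Fin a → ℕ := fun i => lam (Fin.castAdd k i) with hmu
      have hlam : lam = fun i : Fin (a + k) => if h : (i : ℕ) < a then mu ⟨i, h⟩ else 0 := by
        funext i
        by_cases hi : (i : ℕ) < a
        · rw [dif_pos hi, hmu]
          congr 1
        · rw [dif_neg hi]
          exact hz i (by omega)
      have hz2 : ∀ i : Fin k, lam (Fin.natAdd a i) = 0 := fun i => hz _ (by simp)
      rw [hlam, hP a b a k mu, hP b a a k mu]
      apply h
      · intro i j hij
        have hij' : (i : ℕ) ≤ j := hij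
        exact hanti (show Fin.castAdd k i ≤ Fin.castAdd k j from hij')
      · rw [← hsum, Fin.sum_univ_add]
        rw [Finset.sum_congr rfl fun i _ => hz2 i, Finset.sum_const_zero, add_zero]
      · refine hY.trans (le_of_eq ?_)
        rw [Fin.sum_univ_add]
        have h2 : ∑ i : Fin k, ((f (lam (Fin.natAdd a i)) : ℕ) : ℝ) = 0 := by
          apply Finset.sum_eq_zero
          intro i _
          rw [hz2 i, hf, Nat.cast_zero]
        rw [h2, add_zero]

/-- one row carries the sum up to a logarithm. -/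
theorem exists_row {a : ℕ} (g : Fin a → ℝ) (hS : 0 < ∑ i, g i) :
    ∃ i : Fin a, (∑ i, g i) ≤ (1 + Real.log a) * (((i : ℕ) + 1) * g i) := by
  by_contra hcon
  push Not at hcon
  have ha : 0 < a := by
    rcases Nat.eq_zero_or_pos a with h | h
    · subst h
      simp at hS
    · exact h
  have hlog : 0 < 1 + Real.log a := by
    have := Real.log_nonneg (show (1 : ℝ) ≤ a by exact_mod_cast ha)
    linarith
  set S := ∑ i, g i with hSdef
  have h1 : ∀ i : Fin a, g i < S / (1 + Real.log a) * (((i : ℕ) : ℝ) + 1)⁻¹ := by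
    intro i
    have h2 := hcon i
    have h3 : (0 : ℝ) < ((i : ℕ) : ℝ) + 1 := by positivity
    rw [← div_eq_mul_inv, lt_div_iff₀ h3, lt_div_iff₀ hlog]
    calc g i * (((i : ℕ) : ℝ) + 1) * (1 + Real.log a)
        = (1 + Real.log a) * ((((i : ℕ) : ℝ) + 1) * g i) := by ring
      _ < S := h2
  have h2 : S < ∑ i : Fin a, S / (1 + Real.log a) * (((i : ℕ) : ℝ) + 1)⁻¹ := by
    rw [hSdef]
    exact Finset.sum_lt_sum_of_nonempty ⟨⟨0, ha⟩, Finset.mem_univ _⟩ fun i _ => h1 i
  have h3 : ∑ i : Fin a, (((i : ℕ) : ℝ) + 1)⁻¹ ≤ 1 + Real.log a := by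
    have h4 := harmonic_le_one_add_log a
    have h5 : ((harmonic a : ℚ) : ℝ) = ∑ i : Fin a, (((i : ℕ) : ℝ) + 1)⁻¹ := by
      rw [harmonic, Finset.sum_range]
      push_cast
      rfl
    rw [h5] at h4
    exact h4
  rw [← Finset.mul_sum] at h2
  have h6 : S / (1 + Real.log a) * ∑ i : Fin a, (((i : ℕ) : ℝ) + 1)⁻¹ ≤
      S / (1 + Real.log a) * (1 + Real.log a) := by
    apply mul_le_mul_of_nonneg_left h3
    positivity
  rw [div_mul_cancel₀ _ hlog.ne'] at h6
  linarith

/-- **[S10-ALLg]** -/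
theorem all10g (h10 : Main10g) (hB : T4.BigStmt) : Main10gAll := by
  intro ε hε
  have e1 := h10 (ε / 2) (by linarith)
  have e2 : ∀ᶠ a : ℕ in Filter.atTop, 1 + Real.log a ≤ (a : ℝ) ^ (ε / 2) := by
    have h1 : Filter.Tendsto (fun a : ℕ => ((a : ℝ) ^ (ε / 4))) Filter.atTop Filter.atTop :=
      (tendsto_rpow_atTop (by linarith)).comp tendsto_natCast_atTop_atTop
    filter_upwards [h1.eventually_ge_atTop (1 + 4 / ε), Filter.eventually_ge_atTop 1] with a h2 h3
    have ha1 : (1 : ℝ) ≤ a := by exact_mod_cast h3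
    have ha0 : (0 : ℝ) < a := by linarith
    have h4 : Real.log a ≤ 4 / ε * (a : ℝ) ^ (ε / 4) := by
      have h5 := Real.log_le_rpow_div ha0.le (show 0 < ε / 4 by linarith)
      calc Real.log a ≤ (a : ℝ) ^ (ε / 4) / (ε / 4) := h5
        _ = 4 / ε * (a : ℝ) ^ (ε / 4) := by field_simp
    have h6 : (1 : ℝ) ≤ (a : ℝ) ^ (ε / 4) := by
      have : 0 < 4 / ε := by positivity
      linarith
    calc 1 + Real.log a ≤ (a : ℝ) ^ (ε / 4) + 4 / ε * (a : ℝ) ^ (ε / 4) := by linarith
      _ = (1 + 4 / ε) * (a : ℝ) ^ (ε / 4) := by ring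
      _ ≤ (a : ℝ) ^ (ε / 4) * (a : ℝ) ^ (ε / 4) := by gcongr
      _ = (a : ℝ) ^ (ε / 2) := by
          rw [← Real.rpow_add ha0]
          congr 1
          ring
  obtain ⟨a₀, h⟩ := Filter.eventually_atTop.1 (e1.and (e2.and (Filter.eventually_ge_atTop 1)))
  refine ⟨a₀, fun a ha b n lam hab hl => ?_⟩
  obtain ⟨H1, H2, ha1⟩ := h a ha
  have ha1R : (1 : ℝ) ≤ a := by exact_mod_cast ha1
  have ha0 : (0 : ℝ) < a := by linarith
  have habR : (a : ℝ) ≤ b := by exact_mod_cast hab
  have hb0 : (0 : ℝ) < b := by linarith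
  rcases Nat.le_total ((a - 1) ^ 2) b with hbig | hsmall
  · exact hB a b n lam hbig
  · have hba : b ≤ a ^ 2 := hsmall.trans (Nat.pow_le_pow_left (Nat.sub_le a 1) 2)
    have hpos : (0 : ℝ) < (b : ℝ) ^ 2 * (a : ℝ) ^ ε := by positivity
    have hba0 : (0 : ℝ) < (b : ℝ) - a := by
      rcases (sub_nonneg.2 habR).lt_or_eq with h1 | h1
      · exact h1
      · exfalso
        rw [← h1, zero_mul] at hl
        linarith
    refine all_n_sum (fun x => min b x) (by simp) (Y := (b : ℝ) ^ 2 * (a : ℝ) ^ ε / (b - a))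
      (fun mu hmu hsum hY => ?_) n lam ?_
    · have hS : 0 < ∑ i : Fin a, ((min b (mu i) : ℕ) : ℝ) :=
        lt_of_lt_of_le (by positivity) hY
      obtain ⟨i, hi⟩ := exists_row (fun i : Fin a => ((min b (mu i) : ℕ) : ℝ)) hS
      refine H1 b hab hba mu hmu hsum i ?_
      have h4 : (a : ℝ) ^ ε = (a : ℝ) ^ (ε / 2) * (a : ℝ) ^ (ε / 2) := by
        rw [← Real.rpow_add ha0]
        congr 1
        ring
      have h5 : (b : ℝ) ^ 2 * (a : ℝ) ^ (ε / 2) * (a : ℝ) ^ (ε / 2) ≤
          (((i : ℕ) + 1) * ((b : ℝ) - a) * min (b : ℝ) (mu i)) * (a : ℝ) ^ (ε / 2) := by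
        calc (b : ℝ) ^ 2 * (a : ℝ) ^ (ε / 2) * (a : ℝ) ^ (ε / 2)
            = (b : ℝ) ^ 2 * (a : ℝ) ^ ε / (b - a) * (b - a) := by
              rw [div_mul_cancel₀ _ hba0.ne', h4]
              ring
          _ ≤ ((1 + Real.log a) * (((i : ℕ) + 1) * ((min b (mu i) : ℕ) : ℝ))) * (b - a) := by
              have h6 := hY.trans hi
              gcongr
          _ ≤ ((a : ℝ) ^ (ε / 2) * (((i : ℕ) + 1) * ((min b (mu i) : ℕ) : ℝ))) * (b - a) := by
              gcongr
          _ = (((i : ℕ) + 1) * ((b : ℝ) - a) * min (b : ℝ) (mu i)) * (a : ℝ) ^ (ε / 2) := by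
              rw [Nat.cast_min]
              ring
      exact le_of_mul_le_mul_right h5 (by positivity)
    · rw [div_le_iff₀ hba0]
      calc (b : ℝ) ^ 2 * (a : ℝ) ^ ε ≤ ((b : ℝ) - a) * ∑ i, ((min b (lam i) : ℕ) : ℝ) := hl
        _ = _ := by ring

end Vale.Agent.P181.H59
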