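import Vale.Agent.P181.H59.Spec
import Vale.Agent.P181.H261.Orbit

/-!
# P181, S5: the star design (statements with multiplicities)
-/

set_option autoImplicit false

namespace Vale.Agent.P181.H59

open Finset Vale.Agent.P181 Vale.Agent.P181.H280 Vale.Agent.P181.H463

/-- **[S5-MAT]** the design and the orbit inequality. -/
def MatStmt : Prop :=
  ∀ (a b R N : ℕ) (len : Fin N → ℕ) (lam η : Fin a → ℕ), 0 < b → Design b R N len →
    (∀ c, R ≤ len c ∧ len c ≤ a) → Antitone η →
    (∀ i : Fin a, (univ.filter fun c => (i : ℕ) < len c).card + η i = lam i) →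
    ∑ i, lam i = a * b →
    gt a b η ≤ ((∑ i, η i) + b - 1).choose (b - 1) * (b.factorial * plethMult b a a lam)

/-- **The theorem.** -/
def MainStmt : Prop :=
  ∀ ε δ : ℝ, 0 < ε → 0 < δ → ∀ᶠ a : ℕ in Filter.atTop, ∀ b : ℕ, (1 + δ) * a ≤ b →
    ∀ lam : Fin a → ℕ, Antitone lam → ∑ i, lam i = a * b →
    (∀ i, (lam i : ℝ) ≤ a * (b : ℝ) ^ (1 / 2 - ε)) →
    plethMult a b a lam ≤ plethMult b a a lam

/-- **[S5-NUM]** choice of the marker columns and the numbers. -/
def NumStmt : Prop := DesignStmt → MatStmt → MainStmt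

end Vale.Agent.P181.H59
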