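import Vale.Agent.P181.H59.Spec
import Vale.Agent.P181.H162.Fill

/-!
# P181, S5: completion with exact degrees, long columns
-/

set_option autoImplicit false

namespace Vale.Agent.P181.H59

open Finset Vale.Agent.P181.H162

/-- **[S5-FILL]** -/
theorem exists_fill2 {ι α : Type} [Fintype ι] [DecidableEq ι] [Fintype α] [DecidableEq α]
    (len : ι → ℕ) (G : ι → Finset α) (gd : α → ℕ) (κ pmax e : ℕ)
    (hG : ∀ c, (G c).card ≤ len c) (hna : ∀ c, len c + e ≤ Fintype.card α)
    (hp : ∀ p, dg G p ≤ pmax) (hg : ∀ p, κ ≤ gd p ∧ gd p ≤ κ + 1)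
    (hsum : ∑ p, gd p = ∑ c, len c)
    (hroom : Fintype.card α * (pmax + 1) + e * pmax < e * (κ + 1)) :
    ∃ A : ι → Finset α, (∀ c, G c ⊆ A c) ∧ (∀ c, (A c).card = len c) ∧ ∀ p, dg A p = gd p := by
  classical
  -- the set of completions
  set Ω : Finset (ι → Finset α) :=
    univ.filter (fun β => (∀ c, G c ⊆ β c) ∧ ∀ c, (β c).card = len c) with hΩ
  have hne : Ω.Nonempty := by
    have h1 : ∀ c, ∃ s : Finset α, G c ⊆ s ∧ s.card = len c := by
      intro c
      obtain ⟨s, h1, -, h2⟩ := exists_subsuperset_card_eq (subset_univ (G c)) (hG c)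
        (by rw [card_univ]; have := hna c; omega)
      exact ⟨s, h1, h2⟩
    choose s hs using h1
    exact ⟨s, by rw [hΩ, mem_filter]; exact ⟨mem_univ _, fun c => (hs c).1, fun c => (hs c).2⟩⟩
  obtain ⟨β, hβ, hmin⟩ := exists_min_image Ω (fun β => ∑ q, (dg β q - gd q)) hne
  rw [hΩ, mem_filter] at hβ
  obtain ⟨-, hGβ, hcard⟩ := hβ
  refine ⟨β, hGβ, hcard, ?_⟩
  have htot : ∑ q, dg β q = ∑ q, gd q := by
    rw [sum_dg, hsum]
    exact sum_congr rfl fun c _ => hcard c
  by_contra hcon
  push Not at hcon
  -- an over letter and an under letter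
  have hover : ∃ q, gd q < dg β q := by
    by_contra h
    push Not at h
    obtain ⟨q, hq⟩ := hcon
    have h1 : ∑ q, dg β q < ∑ q, gd q :=
      sum_lt_sum (fun i _ => h i) ⟨q, mem_univ _, lt_of_le_of_ne (h q) hq⟩
    omega
  have hunder : ∃ q, dg β q < gd q := by
    by_contra h
    push Not at h
    obtain ⟨q, hq⟩ := hcon
    have h1 : ∑ q, gd q < ∑ q, dg β q :=
      sum_lt_sum (fun i _ => h i) ⟨q, mem_univ _, lt_of_le_of_ne (h q) (Ne.symm hq)⟩
    omega
  obtain ⟨q', hq'⟩ := hunder
  -- improving moves are impossible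
  have key : ∀ (γ : ι → Finset α) (q : α), gd q < dg β q → (∀ c, G c ⊆ γ c) →
      (∀ c, (γ c).card = len c) →
      (∀ z, dg γ z + (if z = q then 1 else 0) = dg β z + (if z = q' then 1 else 0)) → False := by
    intro γ q hq h1 h2 h3
    have h4 := hmin γ (by rw [hΩ, mem_filter]; exact ⟨mem_univ _, h1, h2⟩)
    have h5 : ∑ z, (dg γ z - gd z) < ∑ z, (dg β z - gd z) := by
      refine sum_lt_sum (fun z _ => ?_) ⟨q, mem_univ _, ?_⟩
      · have h6 := h3 z
        by_cases hz : z = q'
        · subst hz
          rw [if_pos rfl] at h6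
          by_cases hz2 : z = q
          · subst hz2
            omega
          · rw [if_neg hz2] at h6
            omega
        · rw [if_neg hz] at h6
          by_cases hz2 : z = q
          · rw [if_pos hz2] at h6
            omega
          · rw [if_neg hz2] at h6
            omega
      · have h6 := h3 q
        rw [if_pos rfl] at h6
        have hqq : q ≠ q' := by
          rintro rfl
          omega
        rw [if_neg hqq] at h6
        omega
    omega
  -- direct moves
  have hdir : ∀ q, gd q < dg β q → ∀ c, q ∈ β c → q ∉ G c → q' ∈ β c := by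
    intro q hq c hc1 hc2
    by_contra hc3
    exact key (rep β c q q') q hq (sub_rep hGβ hc2) (fun c' => by rw [card_rep hc1 hc3, hcard])
      (fun z => dg_rep hc1 hc3 z)
  obtain ⟨q, hq⟩ := hover
  -- two-step moves
  have htwo : ∀ c, q ∈ β c → q ∉ G c → ∀ y, y ∉ β c → ∀ c', y ∈ β c' → y ∉ G c' →
      q' ∈ β c' := by
    intro c hc1 hc2 y hy4 c' hy1 hy2
    by_contra hy3
    have hcc : c' ≠ c := by
      rintro rfl
      exact hy4 hy1
    have hyq' : y ≠ q' := by
      rintro rfl
      exact hy3 hy1
    have hyc' : y ∈ rep β c q y c' := by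
      unfold rep
      rw [Function.update_of_ne hcc]
      exact hy1
    have hq'c' : q' ∉ rep β c q y c' := by
      unfold rep
      rw [Function.update_of_ne hcc]
      exact hy3
    refine key (rep (rep β c q y) c' y q') q hq ?_ ?_ ?_
    · exact sub_rep (sub_rep hGβ hc2) hy2
    · intro d
      rw [card_rep hyc' hq'c', card_rep hc1 hy4, hcard]
    · intro z
      have h1 := dg_rep hyc' hq'c' z
      have h2 := dg_rep hc1 hy4 z
      omega
  -- the free incidences of `q`
  set P : Finset ι := univ.filter (fun c => q ∈ β c ∧ q ∉ G c) with hP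
  have hPcard : κ + 1 ≤ P.card + pmax := by
    have h1 : (univ.filter (fun c => q ∈ β c)) ⊆ P ∪ (univ.filter (fun c => q ∈ G c)) := by
      intro c hc
      rw [mem_filter] at hc
      rw [mem_union, hP, mem_filter, mem_filter]
      by_cases h2 : q ∈ G c
      · exact Or.inr ⟨mem_univ _, h2⟩
      · exact Or.inl ⟨mem_univ _, hc.2, h2⟩
    have h2 := (card_le_card h1).trans (card_union_le _ _)
    have h3 := hp q
    have h4 := (hg q).1
    unfold dg at h3 hq
    omega
  -- the main estimate
  have hmain : ∀ w, dg β w + (P.filter (fun c => w ∉ β c)).card ≤ κ + 1 + pmax := by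
    intro w
    have hq'1 : dg β q' ≤ κ := by
      have := (hg q').2
      omega
    rcases (P.filter (fun c => w ∉ β c)).eq_empty_or_nonempty with h0 | ⟨c1, hc1⟩
    · rw [h0, card_empty, add_zero]
      rcases Nat.lt_or_ge (gd w) (dg β w) with h | h
      · have h1 : (univ.filter (fun c => w ∈ β c)) ⊆
            (univ.filter (fun c => w ∈ G c)) ∪ (univ.filter (fun c => q' ∈ β c)) := by
          intro c hc
          rw [mem_filter] at hc
          rw [mem_union, mem_filter, mem_filter]
          by_cases h2 : w ∈ G c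
          · exact Or.inl ⟨mem_univ _, h2⟩
          · exact Or.inr ⟨mem_univ _, hdir w h c hc.2 h2⟩
        have h2 := (card_le_card h1).trans (card_union_le _ _)
        have h3 := hp w
        unfold dg at h3 hq'1 ⊢
        omega
      · have h3 := (hg w).2
        omega
    · rw [mem_filter, hP, mem_filter] at hc1
      obtain ⟨⟨-, hc1, hc2⟩, hc3⟩ := hc1
      have h1 : (univ.filter (fun c => w ∈ β c)) ⊆ (univ.filter (fun c => w ∈ G c)) ∪
          ((univ.filter (fun c => q' ∈ β c)) \ (P.filter (fun c => w ∉ β c))) := by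
        intro c hc
        rw [mem_filter] at hc
        rw [mem_union, mem_filter, mem_sdiff, mem_filter, mem_filter]
        by_cases h2 : w ∈ G c
        · exact Or.inl ⟨mem_univ _, h2⟩
        · exact Or.inr ⟨⟨mem_univ _, htwo c1 hc1 hc2 w hc3 c hc.2 h2⟩, fun h => h.2 hc.2⟩
      have h2 : P.filter (fun c => w ∉ β c) ⊆ univ.filter (fun c => q' ∈ β c) := by
        intro c hc
        rw [mem_filter, hP, mem_filter] at hc
        rw [mem_filter]
        exact ⟨mem_univ _, hdir q hq c hc.1.2.1 hc.1.2.2⟩
      have h3 := (card_le_card h1).trans (card_union_le _ _)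
      rw [card_sdiff_of_subset h2] at h3
      have h4 := card_le_card h2
      have h5 := hp w
      unfold dg at h5 hq'1 ⊢
      omega
  -- sum over all letters
  have hs1 : ∑ w, (P.filter (fun c => w ∉ β c)).card = ∑ c ∈ P, (univ \ β c).card := by
    have h1 : ∀ w, (P.filter (fun c => w ∉ β c)).card = ∑ c ∈ P, if w ∉ β c then 1 else 0 :=
      fun w => card_filter _ _
    rw [sum_congr rfl fun w _ => h1 w, sum_comm]
    refine sum_congr rfl fun c _ => ?_
    rw [← card_filter]
    congr 1
    ext w
    simp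
  have hs2 : P.card * e ≤ ∑ c ∈ P, (univ \ β c).card := by
    rw [← smul_eq_mul]
    refine card_nsmul_le_sum _ _ _ fun c _ => ?_
    rw [card_sdiff_of_subset (subset_univ _), card_univ, hcard]
    have := hna c
    omega
  have hs3 : Fintype.card α * κ ≤ ∑ w, dg β w := by
    rw [htot, ← card_univ, ← smul_eq_mul]
    exact card_nsmul_le_sum _ _ _ fun p _ => (hg p).1
  have hs4 : ∑ w, (dg β w + (P.filter (fun c => w ∉ β c)).card) ≤
      Fintype.card α * (κ + 1 + pmax) := by
    rw [← card_univ, ← smul_eq_mul]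
    exact sum_le_card_nsmul _ _ _ fun w _ => hmain w
  rw [sum_add_distrib, hs1] at hs4
  have hs5 : (κ + 1) * e ≤ (P.card + pmax) * e := Nat.mul_le_mul_right _ hPcard
  nlinarith

/-- **[S5-FILL]** done. -/
theorem fill : FillStmt := by
  intro ι α _ _ _ _ len G gd κ pmax e hG hna hp hg hsum hroom
  exact exists_fill2 len G gd κ pmax e hG hna hp hg hsum hroom

end Vale.Agent.P181.H59
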