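import Vale.Agent.P181.S6.Spec
import Vale.Agent.P181.H328.Seq
import Vale.Agent.P181.H896.Pick

/-!
# P181, S6: the certification columns of S5 with small degrees (leaf [S6-HIT5])

Sequential choice with an exponential potential for the degrees.
-/

set_option autoImplicit false

namespace Vale.Agent.P181.H59.Hit5

open Finset Vale.Agent.P181.H59 Vale.Agent.P181.S6 Vale.Agent.P181.H328.Seq

variable {b g n : ℕ}

lemma av_card (S : Sys b g n) (u : Fin g) (β : Bool) (i : Fin n ⊕ Fin n) :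
    2 ^ g ≤ 2 * (av S u β i).card := by
  classical
  obtain ⟨γ, hγ⟩ : ∃ γ : Bool, av S u β i = (S.st i).filter fun p => S.col p u = γ := by
    rcases i with y | z
    · exact ⟨β, rfl⟩
    · refine ⟨!β, ?_⟩
      show (S.st (Sum.inr z)).filter (fun p => S.col p u ≠ β) = _
      apply filter_congr
      intro p _
      cases S.col p u <;> cases β <;> simp
  have h : (univ : Finset (Fin g → Bool)) ⊆ (av S u β i).image S.col ∪
      (av S u β i).image (fun p => Function.update (S.col p) u (!γ)) := by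
    intro κ _
    rw [hγ, mem_union]
    by_cases hκ : κ u = γ
    · left
      obtain ⟨p, hp, h⟩ := S.colour i κ
      exact mem_image.2 ⟨p, mem_filter.2 ⟨hp, by rw [h, hκ]⟩, h⟩
    · right
      obtain ⟨p, hp, h⟩ := S.colour i (Function.update κ u γ)
      refine mem_image.2 ⟨p, mem_filter.2 ⟨hp, by rw [h]; simp⟩, ?_⟩
      rw [h, Function.update_idem]
      apply Function.update_eq_self_iff.2
      revert hκ
      cases κ u <;> cases γ <;> simp
  have h1 := card_le_card h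
  have h2 := card_union_le ((av S u β i).image S.col)
    ((av S u β i).image (fun p => Function.update (S.col p) u (!γ)))
  have h3 := card_image_le (s := av S u β i) (f := S.col)
  have h4 := card_image_le (s := av S u β i) (f := fun p => Function.update (S.col p) u (!γ))
  have h5 : (univ : Finset (Fin g → Bool)).card = 2 ^ g := by simp
  omega

lemma av_unique (S : Sys b g n) (u : Fin g) (β : Bool) (i j : Fin n ⊕ Fin n) (p : Fin b)
    (hi : p ∈ av S u β i) (hj : p ∈ av S u β j) : i = j := by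
  rcases i with y | z <;> rcases j with y' | z'
  · by_contra hne
    exact Finset.disjoint_left.1 (S.disjL y y' (fun e => hne (by rw [e])))
      (av_sub S u β _ hi) (av_sub S u β _ hj)
  · exact absurd (mem_filter.1 hi).2 (mem_filter.1 hj).2
  · exact absurd (mem_filter.1 hj).2 (mem_filter.1 hi).2
  · by_contra hne
    exact Finset.disjoint_left.1 (S.disjM z z' (fun e => hne (by rw [e])))
      (av_sub S u β _ hi) (av_sub S u β _ hj)

/-- picks: a letter is picked with probability at most `2 / 2 ^ g`. -/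
lemma pick_count (S : Sys b g n) (u : Fin g) (β : Bool) (p : Fin b) :
    ((Fintype.piFinset (av S u β)).filter (fun φ => ∃ i, φ i = p)).card * 2 ^ g ≤
      2 * ∏ i, (av S u β i).card := by
  classical
  by_cases h : ∃ i, p ∈ av S u β i
  · obtain ⟨i, hi⟩ := h
    have h1 : (Fintype.piFinset (av S u β)).filter (fun φ => ∃ i, φ i = p) ⊆
        (Fintype.piFinset (av S u β)).filter (fun φ => φ i = p) := by
      intro φ hφ
      rw [mem_filter, Fintype.mem_piFinset] at hφ
      obtain ⟨h1, j, hj⟩ := hφ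
      rw [mem_filter, Fintype.mem_piFinset]
      refine ⟨h1, ?_⟩
      have : p ∈ av S u β j := hj ▸ h1 j
      rw [← av_unique S u β j i p this hi]
      exact hj
    have h2 := card_le_card h1
    rw [Fintype.card_filter_piFinset_eq_of_mem _ _ hi] at h2
    have h3 : ∏ j, (av S u β j).card =
        (av S u β i).card * ∏ j ∈ univ.erase i, (av S u β j).card :=
      (mul_prod_erase univ _ (mem_univ i)).symm
    rw [h3]
    have h4 := av_card S u β i
    calc ((Fintype.piFinset (av S u β)).filter (fun φ => ∃ i, φ i = p)).card * 2 ^ g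
        ≤ (∏ j ∈ univ.erase i, (av S u β j).card) * (2 * (av S u β i).card) :=
          Nat.mul_le_mul h2 h4
      _ = _ := by ring
  · have h1 : (Fintype.piFinset (av S u β)).filter (fun φ => ∃ i, φ i = p) = ∅ := by
      apply filter_eq_empty_iff.2
      intro φ hφ
      rw [Fintype.mem_piFinset] at hφ
      rintro ⟨j, hj⟩
      exact h ⟨j, hj ▸ hφ j⟩
    rw [h1, card_empty, Nat.zero_mul]
    exact Nat.zero_le _

/-- `k`-subsets through a point. -/
lemma choose_count (n k : ℕ) (y : Fin n) :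
    ((powersetCard k (univ : Finset (Fin n))).filter (fun Z => y ∈ Z)).card * n ≤
      k * n.choose k := by
  classical
  obtain _ | k := k
  · have : (powersetCard 0 (univ : Finset (Fin n))).filter (fun Z => y ∈ Z) = ∅ := by
      apply filter_eq_empty_iff.2
      intro Z hZ
      rw [powersetCard_zero, mem_singleton] at hZ
      rw [hZ]
      exact notMem_empty y
    rw [this]
    simp
  obtain _ | n := n
  · exact y.elim0
  have h1 : ((powersetCard (k + 1) (univ : Finset (Fin (n + 1)))).filter (fun Z => y ∈ Z)).card ≤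
      (powersetCard k ((univ : Finset (Fin (n + 1))).erase y)).card := by
    apply card_le_card_of_injOn (fun Z => Z.erase y)
    · intro Z hZ
      have hZ' := mem_filter.1 (mem_coe.1 hZ)
      rw [mem_coe, mem_powersetCard]
      refine ⟨erase_subset_erase y (subset_univ _), ?_⟩
      show (Z.erase y).card = k
      rw [card_erase_of_mem hZ'.2, (mem_powersetCard.1 hZ'.1).2]
      rfl
    · intro Z hZ Z' hZ' h
      have h1 := (mem_filter.1 (mem_coe.1 hZ)).2
      have h2 := (mem_filter.1 (mem_coe.1 hZ')).2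
      rw [← insert_erase h1, ← insert_erase h2]
      exact congrArg (insert y) h
  rw [card_powersetCard, card_erase_of_mem (mem_univ y), card_univ, Fintype.card_fin,
    Nat.add_sub_cancel] at h1
  have h2 := Nat.add_one_mul_choose_eq n k
  calc _ ≤ n.choose k * (n + 1) := Nat.mul_le_mul_right _ h1
    _ = (n + 1) * n.choose k := Nat.mul_comm _ _
    _ = (n + 1).choose (k + 1) * (k + 1) := h2
    _ = _ := Nat.mul_comm _ _

/-- the samples hitting a letter. -/
lemma hit_count (S : Sys b g n) (u : Fin g) (β : Bool) (k : ℕ) (hn : 0 < n) (p : Fin b) :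
    ∑ ω ∈ Fintype.piFinset (av S u β) ×ˢ powersetCard k (univ : Finset (Fin n)),
        (open Classical in if Kill S ω.1 ω.2 {p} then (0 : ℝ) else 1) ≤
      (2 / 2 ^ g + (k : ℝ) / n) * ((∏ i, ((av S u β i).card : ℝ)) * (n.choose k : ℝ)) := by
  classical
  set Pi := Fintype.piFinset (av S u β) with hPi
  set Pk := powersetCard k (univ : Finset (Fin n)) with hPk
  have hPic : Pi.card = ∏ i, (av S u β i).card := Fintype.card_piFinset _
  have hPkc : Pk.card = n.choose k := by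
    rw [hPk, card_powersetCard, card_univ, Fintype.card_fin]
  have e1 : ∑ ω ∈ Pi ×ˢ Pk, (if Kill S ω.1 ω.2 {p} then (0 : ℝ) else 1) =
      (((Pi ×ˢ Pk).filter (fun ω => ¬ Kill S ω.1 ω.2 {p})).card : ℝ) := by
    rw [card_filter]
    push_cast
    apply sum_congr rfl
    intro ω _
    by_cases h : Kill S ω.1 ω.2 {p}
    · rw [if_pos h, if_neg (not_not.2 h)]
    · rw [if_neg h, if_pos h]
  have e2 : ∃ X : Finset (Finset (Fin n)), X ⊆ Pk ∧ X.card * n ≤ k * n.choose k ∧
      ∀ Z ∈ Pk, (∃ y ∈ Z, p ∈ S.st (Sum.inl y)) → Z ∈ X := by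
    by_cases h : ∃ y, p ∈ S.st (Sum.inl y)
    · obtain ⟨y, hy⟩ := h
      refine ⟨Pk.filter (fun Z => y ∈ Z), filter_subset _ _, choose_count n k y, ?_⟩
      rintro Z hZ ⟨y', hy', hp⟩
      rw [mem_filter]
      refine ⟨hZ, ?_⟩
      have : y' = y := by
        by_contra hne
        exact Finset.disjoint_left.1 (S.disjL y' y hne) hp hy
      rwa [← this]
    · refine ⟨∅, empty_subset _, by simp, ?_⟩
      rintro Z _ ⟨y', _, hp⟩
      exact absurd ⟨y', hp⟩ h
  obtain ⟨X, hX1, hX2, hX3⟩ := e2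
  have e3 : (Pi ×ˢ Pk).filter (fun ω => ¬ Kill S ω.1 ω.2 {p}) ⊆
      (Pi.filter (fun φ => ∃ i, φ i = p)) ×ˢ Pk ∪ Pi ×ˢ X := by
    rintro ⟨φ, Z⟩ h
    rw [mem_filter, mem_product] at h
    obtain ⟨⟨h1, h2⟩, h3⟩ := h
    rw [mem_union, mem_product, mem_product, mem_filter]
    by_cases h4 : ∃ i, φ i = p
    · left
      exact ⟨⟨h1, h4⟩, h2⟩
    · right
      refine ⟨h1, hX3 Z h2 ?_⟩
      by_contra h5
      apply h3
      refine ⟨fun i hi => h4 ⟨i, mem_singleton.1 hi⟩, fun y hy => ?_⟩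
      rw [disjoint_singleton_right]
      exact fun hp => h5 ⟨y, hy, hp⟩
  have e4 := (card_le_card e3).trans (card_union_le _ _)
  rw [card_product, card_product, hPic, hPkc] at e4
  have e5 := pick_count S u β p
  have hn' : (0 : ℝ) < n := by exact_mod_cast hn
  have h2g : (0 : ℝ) < 2 ^ g := by positivity
  have e4' : (((Pi ×ˢ Pk).filter (fun ω => ¬ Kill S ω.1 ω.2 {p})).card : ℝ) ≤
      ((Pi.filter (fun φ => ∃ i, φ i = p)).card : ℝ) * (n.choose k : ℝ) +
        (∏ i, ((av S u β i).card : ℝ)) * (X.card : ℝ) := by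
    have := (Nat.cast_le (α := ℝ)).2 e4
    push_cast at this
    exact this
  have e5' : ((Pi.filter (fun φ => ∃ i, φ i = p)).card : ℝ) ≤
      (2 / 2 ^ g) * ∏ i, ((av S u β i).card : ℝ) := by
    have := (Nat.cast_le (α := ℝ)).2 e5
    push_cast at this
    rw [div_mul_eq_mul_div, le_div_iff₀ h2g]
    exact this
  have e6' : (X.card : ℝ) ≤ ((k : ℝ) / n) * (n.choose k : ℝ) := by
    have := (Nat.cast_le (α := ℝ)).2 hX2
    push_cast at this
    rw [div_mul_eq_mul_div, le_div_iff₀ hn']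
    exact this
  rw [e1]
  have hc0 : (0 : ℝ) ≤ (n.choose k : ℝ) := by positivity
  have hp0 : (0 : ℝ) ≤ ∏ i, ((av S u β i).card : ℝ) := prod_nonneg fun _ _ => by positivity
  calc _ ≤ _ := e4'
    _ ≤ ((2 / 2 ^ g) * ∏ i, ((av S u β i).card : ℝ)) * (n.choose k : ℝ) +
        (∏ i, ((av S u β i).card : ℝ)) * (((k : ℝ) / n) * (n.choose k : ℝ)) :=
        add_le_add (mul_le_mul_of_nonneg_right e5' hc0) (mul_le_mul_of_nonneg_left e6' hp0)
    _ = _ := by ring

/-- for one colour bit: the average over the samples. -/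
lemma avg_uβ' (S : Sys b g n) (u : Fin g) (β : Bool) (k : ℕ) (θ : ℝ)
    (hn : 2 ^ g + 2 < n) (hk : k + (2 ^ g + 2) ≤ n)
    (hθ : θ ≤ (1 - (k : ℝ) / ((n : ℝ) - (2 ^ g + 2))) ^ (2 ^ g + 2))
    (F : Finset (Finset (Fin b))) (hF : ∀ T ∈ F, T.card ≤ 2 ^ g + 2)
    (w : Finset (Fin b) → ℝ) (hw : ∀ T, 0 ≤ w T) (v : Fin b → ℝ) (hv : ∀ p, 0 ≤ v p) (R : ℝ)
    (H : ∀ (φ : Fin n ⊕ Fin n → Fin b) (Z : Finset (Fin n)), (∀ i, φ i ∈ av S u β i) →
      Z.card = k → ∑ T ∈ F, (open Classical in if Kill S φ Z T then w T else 0) -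
        ∑ p, v p * (open Classical in if Kill S φ Z {p} then (0 : ℝ) else 1) < R) :
    ∑ T ∈ F, w T * θ * ∏ i, (((av S u β i \ T).card : ℝ) / (av S u β i).card) -
      (2 / 2 ^ g + (k : ℝ) / n) * ∑ p, v p < R := by
  classical
  set Ω := Fintype.piFinset (av S u β) ×ˢ powersetCard k (univ : Finset (Fin n)) with hΩ
  have hcard : Ω.card = (∏ i, (av S u β i).card) * n.choose k := by
    rw [hΩ, card_product, Fintype.card_piFinset, card_powersetCard, card_univ, Fintype.card_fin]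
  have hpos1 : 0 < ∏ i, (av S u β i).card :=
    prod_pos fun i _ => card_pos.2 (av_nonempty S u β i)
  have hpos2 : 0 < n.choose k := Nat.choose_pos (le_trans (Nat.le_add_right _ _) hk)
  have hpos : 0 < Ω.card := by
    rw [hcard]
    exact Nat.mul_pos hpos1 hpos2
  have hne : Ω.Nonempty := card_pos.1 hpos
  have h1 : ∑ ω ∈ Ω, (∑ T ∈ F, (if Kill S ω.1 ω.2 T then w T else 0) -
      ∑ p, v p * (if Kill S ω.1 ω.2 {p} then (0 : ℝ) else 1)) < ∑ _ω ∈ Ω, R := by
    apply sum_lt_sum_of_nonempty hne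
    rintro ⟨φ, Z⟩ h
    rw [hΩ, mem_product, Fintype.mem_piFinset, mem_powersetCard] at h
    exact H φ Z h.1 h.2.2
  rw [sum_const, nsmul_eq_mul, sum_sub_distrib, sum_comm] at h1
  have h2 : ∑ T ∈ F, w T * (θ * (n.choose k : ℝ) * ∏ i, ((av S u β i \ T).card : ℝ)) ≤
      ∑ T ∈ F, ∑ ω ∈ Ω, (if Kill S ω.1 ω.2 T then w T else 0) := by
    apply sum_le_sum
    intro T hT
    have h3 := kill_count S u β k T θ hn hk (hF T hT) hθ
    calc w T * (θ * (n.choose k : ℝ) * ∏ i, ((av S u β i \ T).card : ℝ))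
        ≤ w T * ∑ ω ∈ Ω, (if Kill S ω.1 ω.2 T then (1 : ℝ) else 0) :=
          mul_le_mul_of_nonneg_left h3 (hw T)
      _ = ∑ ω ∈ Ω, (if Kill S ω.1 ω.2 T then w T else 0) := by
          rw [mul_sum]
          apply sum_congr rfl
          intro ω _
          split_ifs <;> simp
  have h2' : ∑ ω ∈ Ω, ∑ p, v p * (if Kill S ω.1 ω.2 {p} then (0 : ℝ) else 1) ≤
      (Ω.card : ℝ) * ((2 / 2 ^ g + (k : ℝ) / n) * ∑ p, v p) := by
    rw [sum_comm, mul_sum, mul_sum]
    apply sum_le_sum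
    intro p _
    rw [← mul_sum]
    have h3 := hit_count S u β k (lt_of_le_of_lt (Nat.zero_le _) hn) p
    calc v p * ∑ ω ∈ Ω, (if Kill S ω.1 ω.2 {p} then (0 : ℝ) else 1)
        ≤ v p * ((2 / 2 ^ g + (k : ℝ) / n) *
          ((∏ i, ((av S u β i).card : ℝ)) * (n.choose k : ℝ))) :=
          mul_le_mul_of_nonneg_left h3 (hv p)
      _ = (Ω.card : ℝ) * ((2 / 2 ^ g + (k : ℝ) / n) * v p) := by
          rw [hcard]
          push_cast
          ring
  have h5 : ∑ T ∈ F, w T * (θ * (n.choose k : ℝ) * ∏ i, ((av S u β i \ T).card : ℝ)) =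
      (Ω.card : ℝ) * ∑ T ∈ F, w T * θ *
        ∏ i, (((av S u β i \ T).card : ℝ) / (av S u β i).card) := by
    rw [mul_sum]
    apply sum_congr rfl
    intro T _
    rw [prod_div_distrib, hcard, Nat.cast_mul, Nat.cast_prod]
    have hne' : (∏ i, ((av S u β i).card : ℝ)) ≠ 0 := by
      rw [← Nat.cast_prod]; exact_mod_cast hpos1.ne'
    generalize (∏ i, ((av S u β i).card : ℝ)) = X at hne' ⊢
    generalize (∏ i, ((av S u β i \ T).card : ℝ)) = Y
    field_simp
  rw [h5] at h2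
  have h6 : (Ω.card : ℝ) * (∑ T ∈ F, w T * θ *
        ∏ i, (((av S u β i \ T).card : ℝ) / (av S u β i).card) -
      (2 / 2 ^ g + (k : ℝ) / n) * ∑ p, v p) < (Ω.card : ℝ) * R := by
    rw [mul_sub]
    linarith
  exact lt_of_mul_lt_mul_left h6 (by positivity)

/-- averaging: one sample. -/
lemma one_sample' (hP : PickStmt) (S : Sys b g n) (k : ℕ) (θ : ℝ) (hg : 6 ≤ g)
    (hn : 2 ^ g + 2 < n) (hk : k + (2 ^ g + 2) ≤ n) (hθ0 : 0 < θ)
    (hθ : θ ≤ (1 - (k : ℝ) / ((n : ℝ) - (2 ^ g + 2))) ^ (2 ^ g + 2))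
    (F : Finset (Finset (Fin b))) (D : Finset (Fin b) → ℕ)
    (hF : ∀ T ∈ F, T.card ≤ 2 ^ g + 2 ∧ 1 ≤ D T ∧ ∀ i, D T ≤ (S.st i \ T).card)
    (w : Finset (Fin b) → ℝ) (hw : ∀ T, 0 ≤ w T) (v : Fin b → ℝ) (hv : ∀ p, 0 ≤ v p) :
    ∃ (u : Fin g) (β : Bool) (φ : Fin n ⊕ Fin n → Fin b) (Z : Finset (Fin n)),
      (∀ i, φ i ∈ av S u β i) ∧ Z.card = k ∧
      ∑ T ∈ F, w T * (θ * (Real.exp (-25) * D T / (2 * g * 2 ^ g))) -
          (2 / 2 ^ g + (k : ℝ) / n) * ∑ p, v p ≤
        ∑ T ∈ F, (open Classical in if Kill S φ Z T then w T else 0) -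
        ∑ p, v p * (open Classical in if Kill S φ Z {p} then (0 : ℝ) else 1) := by
  classical
  by_contra hcon
  push Not at hcon
  set V : ℝ := (2 / 2 ^ g + (k : ℝ) / n) * ∑ p, v p with hV
  set R := ∑ T ∈ F, w T * (θ * (Real.exp (-25) * D T / (2 * g * 2 ^ g))) with hR
  have h1 : ∀ (u : Fin g) (β : Bool),
      ∑ T ∈ F, w T * θ * ∏ i, (((av S u β i \ T).card : ℝ) / (av S u β i).card) < R := by
    intro u β
    have := avg_uβ' S u β k θ hn hk hθ F (fun T hT => (hF T hT).1) w hw v hv (R - V)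
      (fun φ Z h2 h3 => hcon u β φ Z h2 h3)
    linarith
  have hg0 : (0 : ℝ) < g := by exact_mod_cast (by omega : 0 < g)
  have : Nonempty (Fin g) := ⟨⟨0, by omega⟩⟩
  have h2 : ∑ u : Fin g, ∑ β : Bool,
      ∑ T ∈ F, w T * θ * ∏ i, (((av S u β i \ T).card : ℝ) / (av S u β i).card) <
      ∑ _u : Fin g, ∑ _β : Bool, R := by
    apply sum_lt_sum_of_nonempty univ_nonempty
    intro u _
    apply sum_lt_sum_of_nonempty univ_nonempty
    intro β _
    exact h1 u β
  have h3 : ∑ u : Fin g, ∑ β : Bool,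
      ∑ T ∈ F, w T * θ * ∏ i, (((av S u β i \ T).card : ℝ) / (av S u β i).card) =
      (2 * g) * ∑ T ∈ F, w T * θ * pick S T := by
    have e1 : ∀ u : Fin g, ∑ β : Bool,
        ∑ T ∈ F, w T * θ * ∏ i, (((av S u β i \ T).card : ℝ) / (av S u β i).card) =
        ∑ T ∈ F, ∑ β : Bool,
          w T * θ * ∏ i, (((av S u β i \ T).card : ℝ) / (av S u β i).card) :=
      fun u => sum_comm
    rw [sum_congr rfl (fun u _ => e1 u), sum_comm, mul_sum]
    apply sum_congr rfl
    intro T _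
    unfold pick
    have e2 : ∀ u : Fin g, ∑ β : Bool,
          w T * θ * ∏ i, (((av S u β i \ T).card : ℝ) / (av S u β i).card) =
        w T * θ * ∑ β : Bool, ∏ i, (((av S u β i \ T).card : ℝ) / (av S u β i).card) :=
      fun u => (mul_sum _ _ _).symm
    rw [sum_congr rfl (fun u _ => e2 u), ← mul_sum]
    generalize (∑ u : Fin g, ∑ β : Bool,
      ∏ i, (((av S u β i \ T).card : ℝ) / (av S u β i).card)) = X
    field_simp
  have h4 : ∑ _u : Fin g, ∑ _β : Bool, R = (2 * g) * R := by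
    simp
    ring
  rw [h3, h4] at h2
  have h5 : ∑ T ∈ F, w T * θ * pick S T < R := lt_of_mul_lt_mul_left h2 (by positivity)
  have h6 : R ≤ ∑ T ∈ F, w T * θ * pick S T := by
    rw [hR]
    apply sum_le_sum
    intro T hT
    have h7 := hP b g n (D T) S T hg (lt_of_le_of_lt (Nat.zero_le _) hn) (hF T hT).1
      (hF T hT).2.1 (hF T hT).2.2
    rw [mul_assoc (w T) θ (pick S T)]
    exact mul_le_mul_of_nonneg_left (mul_le_mul_of_nonneg_left h7 hθ0.le) (hw T)
  linarith

/-- sequential choice of the samples with factors. -/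
lemma seq_fac {Ω K : Type} (F : Finset K) (f : Ω → K → ℝ) (s : K → ℝ)
    (hf : ∀ ω T, 0 ≤ f ω T) (hs : ∀ T, 0 ≤ s T)
    (H : ∀ w : K → ℝ, (∀ T, 0 ≤ w T) → ∃ ω, ∑ T ∈ F, w T * f ω T ≤ ∑ T ∈ F, w T * s T) :
    ∀ (N : ℕ) (w : K → ℝ), (∀ T, 0 ≤ w T) → ∃ ω : Fin N → Ω, ∑ T ∈ F,
      w T * ∏ c, f (ω c) T ≤ ∑ T ∈ F, w T * s T ^ N := by
  intro N
  induction N with
  | zero =>
    intro w _
    refine ⟨fun c => c.elim0, ?_⟩
    apply le_of_eq
    apply sum_congr rfl
    intro T _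
    simp
  | succ N ih =>
    intro w hw
    obtain ⟨ω, hω⟩ := ih (fun T => w T * s T) (fun T => mul_nonneg (hw T) (hs T))
    obtain ⟨ω', hω'⟩ := H (fun T => w T * ∏ c, f (ω c) T)
      (fun T => mul_nonneg (hw T) (prod_nonneg fun c _ => hf _ _))
    refine ⟨Fin.cons ω' ω, ?_⟩
    calc ∑ T ∈ F, w T * ∏ c, f ((Fin.cons ω' ω : Fin (N+1) → Ω) c) T
        = ∑ T ∈ F, (w T * ∏ c, f (ω c) T) * f ω' T := by
          apply sum_congr rfl
          intro T _
          rw [Fin.prod_univ_succ]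
          simp only [Fin.cons_zero, Fin.cons_succ]
          ring
      _ ≤ ∑ T ∈ F, (w T * ∏ c, f (ω c) T) * s T := hω'
      _ = ∑ T ∈ F, w T * s T * ∏ c, f (ω c) T := by
          apply sum_congr rfl
          intro T _
          ring
      _ ≤ ∑ T ∈ F, w T * s T * s T ^ N := hω
      _ = ∑ T ∈ F, w T * s T ^ (N + 1) := by
          apply sum_congr rfl
          intro T _
          rw [pow_succ]; ring

/-- the union bound, with room. -/
lemma union_bound' (S : Sys b g n) (F : Finset (Finset (Fin b)))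
    (hn : 0 < n) (hb : n + n ≤ b) (hb2 : 8 ≤ b)
    (hF : ∀ T ∈ F, T.card ≤ 2 ^ g + 2 ∧ 1 ≤ DD S T) (q : ℝ) (hq : q = 1 / ((b : ℝ) + 1)) :
    ∑ T ∈ F, q ^ (50 * DD S T) ≤ 1 / 9 := by
  classical
  have hb0 : (0 : ℝ) < (b : ℝ) + 1 := by positivity
  have hq0 : 0 < q := by rw [hq]; positivity
  have hq1 : (b : ℝ) * q ≤ 1 := by
    rw [hq, mul_one_div, div_le_one hb0]; linarith
  have hq9 : 9 * q ≤ 1 := by
    rw [hq, mul_one_div, div_le_one hb0]
    have : (8 : ℝ) ≤ b := by exact_mod_cast hb2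
    linarith
  have hq2 : q ≤ 1 := by linarith
  choose ι hι using fun T => DD_eq S T hn
  set f : Finset (Fin b) → (Fin n ⊕ Fin n) × Finset (Fin b) × Finset (Fin b) :=
    fun T => (ι T, S.st (ι T) \ T, T \ S.st (ι T)) with hf
  have hinj : Function.Injective f := by
    intro T T' h
    rw [hf] at h
    simp only [Prod.mk.injEq] at h
    obtain ⟨h1, h2, h3⟩ := h
    rw [h1] at h2 h3
    ext p
    have h2' := Finset.ext_iff.1 h2 p
    have h3' := Finset.ext_iff.1 h3 p
    simp only [mem_sdiff] at h2' h3'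
    tauto
  have hterm : ∀ T ∈ F, q ^ (50 * DD S T) ≤
      q ^ 4 * (q ^ (1 * (f T).2.1.card) * q ^ (1 * (f T).2.2.card)) := by
    intro T hT
    obtain ⟨hT1, hT2⟩ := hF T hT
    have h1 : (f T).2.1.card = DD S T := hι T
    have h2 : (f T).2.2.card ≤ DD S T + 2 := by
      have e1 : (T \ S.st (ι T)).card + (T ∩ S.st (ι T)).card = T.card :=
        card_sdiff_add_card_inter _ _
      have e2 : (S.st (ι T) \ T).card + (S.st (ι T) ∩ T).card = (S.st (ι T)).card :=
        card_sdiff_add_card_inter _ _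
      have e3 := star_card S (ι T)
      have e4 := hι T
      rw [inter_comm] at e2
      show (T \ S.st (ι T)).card ≤ _
      omega
    rw [h1, ← pow_add, ← pow_add]
    apply pow_le_pow_of_le_one hq0.le hq2
    omega
  calc ∑ T ∈ F, q ^ (50 * DD S T)
      ≤ ∑ T ∈ F, q ^ 4 * (q ^ (1 * (f T).2.1.card) * q ^ (1 * (f T).2.2.card)) :=
        sum_le_sum hterm
    _ = ∑ x ∈ F.image f, q ^ 4 * (q ^ (1 * x.2.1.card) * q ^ (1 * x.2.2.card)) := by
        rw [sum_image (fun a _ b _ h => hinj h)]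
    _ ≤ ∑ x : (Fin n ⊕ Fin n) × Finset (Fin b) × Finset (Fin b),
          q ^ 4 * (q ^ (1 * x.2.1.card) * q ^ (1 * x.2.2.card)) :=
        sum_le_sum_of_subset_of_nonneg (subset_univ _) (fun _ _ _ => by positivity)
    _ = ∑ _i : Fin n ⊕ Fin n, q ^ 4 * ((∑ X : Finset (Fin b), q ^ (1 * X.card)) *
          ∑ Y : Finset (Fin b), q ^ (1 * Y.card)) := by
        rw [Fintype.sum_prod_type]
        apply sum_congr rfl
        intro i _
        rw [Fintype.sum_prod_type, sum_mul_sum, mul_sum]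
        apply sum_congr rfl
        intro X _
        rw [mul_sum]
    _ ≤ ∑ _i : Fin n ⊕ Fin n, q ^ 4 * (3 * 3) := by
        apply sum_le_sum
        intro i _
        apply mul_le_mul_of_nonneg_left _ (by positivity)
        have h := geom b q hq0.le hq1 1 le_rfl hq2
        apply mul_le_mul h h (sum_nonneg fun _ _ => by positivity) (by norm_num)
    _ = (n + n : ℝ) * q ^ 4 * 9 := by
        rw [sum_const, nsmul_eq_mul, card_univ, Fintype.card_sum, Fintype.card_fin]
        push_cast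
        ring
    _ ≤ (b : ℝ) * q ^ 4 * 9 := by
        have : (n + n : ℝ) ≤ b := by exact_mod_cast hb
        gcongr
    _ = ((b : ℝ) * q) * ((9 * q) * q ^ 2) := by ring
    _ ≤ 1 * (1 * q ^ 2) := by
        apply mul_le_mul hq1 _ (by positivity) zero_le_one
        exact mul_le_mul_of_nonneg_right hq9 (by positivity)
    _ ≤ 1 / 9 := by nlinarith

/-- **[S6-HIT5]** -/
theorem hit5_of (hP : PickStmt) : Hit5Stmt := by
  classical
  intro b g n k N P θ S hg hn hk hb hθ0 hθ hN hdeg len hlen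
  have hn0 : 0 < n := lt_of_le_of_lt (Nat.zero_le _) hn
  have hb8 : 8 ≤ b := by
    have h1 : 2 ^ 6 ≤ 2 ^ g := Nat.pow_le_pow_right (by norm_num) hg
    omega
  set F : Finset (Finset (Fin b)) := univ.filter fun T =>
    T.card ≤ 2 ^ g + 2 ∧ ∀ i, ¬ S.st i ⊆ T with hF
  have hD1 : ∀ T ∈ F, 1 ≤ DD S T := by
    intro T hT
    obtain ⟨i, hi⟩ := DD_eq S T hn0
    rw [← hi, Nat.succ_le_iff, card_pos, sdiff_nonempty]
    exact (mem_filter.1 hT).2.2 i
  set q : ℝ := 1 / ((b : ℝ) + 1) with hq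
  set q0 : ℝ := 2 / 2 ^ g + (k : ℝ) / n with hq0
  have hq00 : 0 ≤ q0 := by positivity
  set r : Finset (Fin b) → ℝ := fun T =>
    θ * (Real.exp (-25) * DD S T / (2 * g * 2 ^ g)) with hr
  -- the samples
  let Ω := {ω : (Fin n ⊕ Fin n → Fin b) × Finset (Fin n) //
    (∃ (u : Fin g) (β : Bool), ∀ i, ω.1 i ∈ av S u β i) ∧ ω.2.card = k}
  let f : Ω → Finset (Fin b) ⊕ Fin b → ℝ := fun ω x => match x with
    | Sum.inl T => if Kill S ω.1.1 ω.1.2 T then 0 else 1
    | Sum.inr p => if Kill S ω.1.1 ω.1.2 {p} then 1 else 3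
  let s : Finset (Fin b) ⊕ Fin b → ℝ := fun x => match x with
    | Sum.inl T => Real.exp (-r T)
    | Sum.inr _ => Real.exp (2 * q0)
  have H : ∀ w : Finset (Fin b) ⊕ Fin b → ℝ, (∀ T, 0 ≤ w T) →
      ∃ ω : Ω, ∑ x ∈ F.disjSum univ, w x * f ω x ≤ ∑ x ∈ F.disjSum univ, w x * s x := by
    intro w hw
    obtain ⟨u, β, φ, Z, h1, h2, h3⟩ := one_sample' hP S k θ hg hn hk hθ0 hθ F (DD S)
      (fun T hT => ⟨(mem_filter.1 hT).2.1, hD1 T hT, DD_le S T⟩) (fun T => w (Sum.inl T))
      (fun T => hw _) (fun p => 2 * w (Sum.inr p)) (fun p => mul_nonneg zero_le_two (hw _))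
    refine ⟨⟨(φ, Z), ⟨u, β, h1⟩, h2⟩, ?_⟩
    rw [sum_disjSum, sum_disjSum]
    show ∑ T ∈ F, w (Sum.inl T) * (if Kill S φ Z T then (0 : ℝ) else 1) +
        ∑ p, w (Sum.inr p) * (if Kill S φ Z {p} then (1 : ℝ) else 3) ≤
      ∑ T ∈ F, w (Sum.inl T) * Real.exp (-r T) + ∑ p, w (Sum.inr p) * Real.exp (2 * q0)
    have e1 : ∑ T ∈ F, w (Sum.inl T) * (if Kill S φ Z T then (0 : ℝ) else 1) =
        ∑ T ∈ F, w (Sum.inl T) - ∑ T ∈ F, (if Kill S φ Z T then w (Sum.inl T) else 0) := by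
      rw [← sum_sub_distrib]
      apply sum_congr rfl
      intro T _
      split_ifs <;> simp
    have e2 : ∑ p, w (Sum.inr p) * (if Kill S φ Z {p} then (1 : ℝ) else 3) =
        ∑ p, w (Sum.inr p) +
          ∑ p, (2 * w (Sum.inr p)) * (if Kill S φ Z {p} then (0 : ℝ) else 1) := by
      rw [← sum_add_distrib]
      apply sum_congr rfl
      intro p _
      split_ifs <;> ring
    have e3 : ∑ T ∈ F, w (Sum.inl T) - ∑ T ∈ F, w (Sum.inl T) * r T ≤
        ∑ T ∈ F, w (Sum.inl T) * Real.exp (-r T) := by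
      rw [← sum_sub_distrib]
      apply sum_le_sum
      intro T _
      have h4 := mul_le_mul_of_nonneg_left (Real.add_one_le_exp (-r T)) (hw (Sum.inl T))
      linarith
    have e4 : ∑ p, w (Sum.inr p) + q0 * ∑ p, 2 * w (Sum.inr p) ≤
        ∑ p, w (Sum.inr p) * Real.exp (2 * q0) := by
      rw [mul_sum, ← sum_add_distrib]
      apply sum_le_sum
      intro p _
      have h4 := mul_le_mul_of_nonneg_left (Real.add_one_le_exp (2 * q0)) (hw (Sum.inr p))
      linarith
    have h3' : ∑ T ∈ F, w (Sum.inl T) * r T - q0 * ∑ p, 2 * w (Sum.inr p) ≤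
        ∑ T ∈ F, (if Kill S φ Z T then w (Sum.inl T) else 0) -
        ∑ p, (2 * w (Sum.inr p)) * (if Kill S φ Z {p} then (0 : ℝ) else 1) := h3
    rw [e1, e2]
    linarith
  obtain ⟨ω, hω⟩ := seq_fac (F.disjSum univ) f s
    (fun ω x => by
      rcases x with T | p
      · show (0 : ℝ) ≤ if Kill S ω.1.1 ω.1.2 T then 0 else 1
        split_ifs <;> norm_num
      · show (0 : ℝ) ≤ if Kill S ω.1.1 ω.1.2 {p} then 1 else 3
        split_ifs <;> norm_num)
    (fun x => by
      rcases x with T | p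
      · exact (Real.exp_pos _).le
      · exact (Real.exp_pos _).le) H N
    (fun x => match x with
      | Sum.inl _ => 1
      | Sum.inr _ => Real.exp (-((P : ℝ) + 1)))
    (fun x => by
      rcases x with T | p
      · exact zero_le_one
      · exact (Real.exp_pos _).le)
  rw [sum_disjSum, sum_disjSum] at hω
  have hω' : ∑ T ∈ F, (1 : ℝ) * ∏ c, (if Kill S (ω c).1.1 (ω c).1.2 T then (0 : ℝ) else 1) +
      ∑ p, Real.exp (-((P : ℝ) + 1)) *
        ∏ c, (if Kill S (ω c).1.1 (ω c).1.2 {p} then (1 : ℝ) else 3) ≤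
      ∑ T ∈ F, (1 : ℝ) * Real.exp (-r T) ^ N +
        ∑ _p : Fin b, Real.exp (-((P : ℝ) + 1)) * Real.exp (2 * q0) ^ N := hω
  have hb1 : (0 : ℝ) < (b : ℝ) + 1 := by positivity
  have hsum : ∑ T ∈ F, (1 : ℝ) * Real.exp (-r T) ^ N ≤ 1 / 9 := by
    refine le_trans ?_ (union_bound' S F hn0 hb hb8
      (fun T hT => ⟨(mem_filter.1 hT).2.1, hD1 T hT⟩) q hq)
    apply sum_le_sum
    intro T hT
    rw [one_mul, ← Real.exp_nat_mul]
    have e1 : q ^ (50 * DD S T) =
        Real.exp (((50 * DD S T : ℕ) : ℝ) * (-Real.log ((b : ℝ) + 1))) := by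
      rw [Real.exp_nat_mul, Real.exp_neg, Real.exp_log hb1, hq, one_div]
    rw [e1]
    apply Real.exp_le_exp.2
    have hg0 : (0 : ℝ) < g := by exact_mod_cast (by omega : 0 < g)
    have h2g : (0 : ℝ) < 2 ^ g := by positivity
    have e2 : (N : ℝ) * r T = (N * (θ * Real.exp (-25))) * (DD S T / (2 * g * 2 ^ g)) := by
      rw [hr]; ring
    have e3 : (100 * g * 2 ^ g * Real.log (b + 1)) * (DD S T / (2 * g * 2 ^ g)) ≤
        (N * (θ * Real.exp (-25))) * (DD S T / (2 * g * 2 ^ g)) :=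
      mul_le_mul_of_nonneg_right hN (by positivity)
    have e4 : (100 * g * 2 ^ g * Real.log (b + 1)) * (DD S T / (2 * g * 2 ^ g)) =
        50 * DD S T * Real.log ((b : ℝ) + 1) := by
      field_simp
      ring
    push_cast
    have e5 : (N : ℝ) * -r T = -((N : ℝ) * r T) := by ring
    rw [e5, e2]
    linarith
  have hlogb : 0 ≤ Real.log ((b : ℝ) + 1) := Real.log_nonneg (by
    have : (0 : ℝ) ≤ b := by positivity
    linarith)
  have hNq : 2 * ((N : ℝ) * q0) + 2 * Real.log ((b : ℝ) + 1) ≤ P := by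
    refine le_trans ?_ hdeg
    have hn' : (0 : ℝ) < n := by exact_mod_cast hn0
    have h1 : q0 ≤ 4 / 2 ^ g + ((k : ℝ) + 2) / n := by
      rw [hq0]
      apply add_le_add
      · apply div_le_div_of_nonneg_right (by norm_num) (by positivity)
      · apply div_le_div_of_nonneg_right (by linarith) hn'.le
    have h2 : (N : ℝ) * q0 ≤ N * (4 / 2 ^ g + ((k : ℝ) + 2) / n) :=
      mul_le_mul_of_nonneg_left h1 (by positivity)
    have h3 : 0 ≤ (N : ℝ) * (4 / 2 ^ g + ((k : ℝ) + 2) / n) := by positivity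
    linarith
  have hsum2 : ∑ _p : Fin b, Real.exp (-((P : ℝ) + 1)) * Real.exp (2 * q0) ^ N ≤ 1 / 2 := by
    rw [sum_const, card_univ, Fintype.card_fin, nsmul_eq_mul, ← Real.exp_nat_mul, ← Real.exp_add]
    have h1 : -((P : ℝ) + 1) + (N : ℝ) * (2 * q0) ≤ -1 + -Real.log ((b : ℝ) + 1) := by
      linarith
    calc (b : ℝ) * Real.exp (-((P : ℝ) + 1) + (N : ℝ) * (2 * q0))
        ≤ (b : ℝ) * Real.exp (-1 + -Real.log ((b : ℝ) + 1)) :=
          mul_le_mul_of_nonneg_left (Real.exp_le_exp.2 h1) (by positivity)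
      _ = Real.exp (-1) * (b / ((b : ℝ) + 1)) := by
          rw [Real.exp_add, Real.exp_neg (Real.log _), Real.exp_log hb1]
          ring
      _ ≤ (1 / 2) * 1 := by
          apply mul_le_mul _ _ (by positivity) (by norm_num)
          · rw [Real.exp_neg, inv_eq_one_div]
            apply one_div_le_one_div_of_le (by norm_num)
            have := Real.add_one_le_exp (1 : ℝ)
            linarith
          · rw [div_le_one hb1]; linarith
      _ = 1 / 2 := by norm_num
  have hnn1 : ∀ T, 0 ≤ ∏ c, (if Kill S (ω c).1.1 (ω c).1.2 T then (0 : ℝ) else 1) :=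
    fun T => prod_nonneg fun c _ => by split_ifs <;> norm_num
  have hnn2 : ∀ p : Fin b, 0 ≤ ∏ c, (if Kill S (ω c).1.1 (ω c).1.2 {p} then (1 : ℝ) else 3) :=
    fun p => prod_nonneg fun c _ => by split_ifs <;> norm_num
  have hkill : ∀ T ∈ F, ∃ c, Kill S (ω c).1.1 (ω c).1.2 T := by
    intro T hT
    by_contra hcon
    push Not at hcon
    have h1 : (1 : ℝ) ≤
        ∑ T ∈ F, (1 : ℝ) * ∏ c, (if Kill S (ω c).1.1 (ω c).1.2 T then (0 : ℝ) else 1) := by
      calc (1 : ℝ) = (1 : ℝ) * ∏ c, (if Kill S (ω c).1.1 (ω c).1.2 T then (0 : ℝ) else 1) := by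
            rw [one_mul]
            symm
            apply prod_eq_one
            intro c _
            rw [if_neg (hcon c)]
        _ ≤ _ := single_le_sum (f := fun T => (1 : ℝ) *
              ∏ c, (if Kill S (ω c).1.1 (ω c).1.2 T then (0 : ℝ) else 1))
              (fun T _ => mul_nonneg zero_le_one (hnn1 T)) hT
    have h2 : 0 ≤ ∑ p, Real.exp (-((P : ℝ) + 1)) *
        ∏ c, (if Kill S (ω c).1.1 (ω c).1.2 {p} then (1 : ℝ) else 3) :=
      sum_nonneg fun p _ => mul_nonneg (Real.exp_pos _).le (hnn2 p)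
    linarith
  have hdg : ∀ p : Fin b, (univ.filter fun c => ¬ Kill S (ω c).1.1 (ω c).1.2 {p}).card ≤ P := by
    intro p
    by_contra hcon
    push Not at hcon
    have h1 : (1 : ℝ) ≤ ∑ p, Real.exp (-((P : ℝ) + 1)) *
        ∏ c, (if Kill S (ω c).1.1 (ω c).1.2 {p} then (1 : ℝ) else 3) := by
      calc (1 : ℝ) ≤ Real.exp (-((P : ℝ) + 1)) *
            ∏ c, (if Kill S (ω c).1.1 (ω c).1.2 {p} then (1 : ℝ) else 3) := by
            rw [prod_ite, prod_const_one, one_mul, prod_const, Real.exp_neg,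
              inv_mul_eq_div, one_le_div (Real.exp_pos _)]
            have h2 : Real.exp ((P : ℝ) + 1) = Real.exp 1 ^ (P + 1) := by
              rw [← Real.exp_nat_mul]
              push_cast
              rw [mul_one]
            rw [h2]
            have h3 : Real.exp 1 ≤ 3 := by
              have := Real.exp_one_lt_d9
              linarith
            calc Real.exp 1 ^ (P + 1) ≤ 3 ^ (P + 1) :=
                  pow_le_pow_left₀ (Real.exp_pos 1).le h3 _
              _ ≤ _ := pow_le_pow_right₀ (by norm_num) hcon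
        _ ≤ _ := single_le_sum (f := fun p => Real.exp (-((P : ℝ) + 1)) *
            ∏ c, (if Kill S (ω c).1.1 (ω c).1.2 {p} then (1 : ℝ) else 3))
              (fun p _ => mul_nonneg (Real.exp_pos _).le (hnn2 p)) (mem_univ p)
    have h2 : 0 ≤ ∑ T ∈ F, (1 : ℝ) *
        ∏ c, (if Kill S (ω c).1.1 (ω c).1.2 T then (0 : ℝ) else 1) :=
      sum_nonneg fun T _ => mul_nonneg zero_le_one (hnn1 T)
    linarith
  have hcol : ∀ c, ∃ A : Finset (Fin b), A.card = len c ∧ HasSDR S.st A ∧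
      ∀ T : Finset (Fin b), Kill S (ω c).1.1 (ω c).1.2 T → Disjoint A T := by
    intro c
    obtain ⟨⟨u, β, h1⟩, h2⟩ := (ω c).2
    exact column S u β (ω c).1.1 h1 (ω c).1.2 k h2 (len c) (hlen c).1 (hlen c).2
  choose A hA using hcol
  refine ⟨A, fun c => (hA c).1, fun c => (hA c).2.1, fun p => ?_, fun T hT1 hT2 => ?_⟩
  · refine le_trans (card_le_card ?_) (hdg p)
    intro c hc
    rw [mem_filter] at hc ⊢
    refine ⟨mem_univ _, fun hk => ?_⟩
    have := (hA c).2.2 {p} hk
    rw [disjoint_singleton_right] at this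
    exact this hc.2
  · obtain ⟨c, hc⟩ := hkill T (mem_filter.2 ⟨mem_univ _, hT1, hT2⟩)
    exact ⟨c, (hA c).2.2 T hc⟩

/-- **[S6-HIT5]** -/
theorem hit5 : Hit5Stmt := hit5_of Vale.Agent.P181.H896.pick_stmt

end Vale.Agent.P181.H59.Hit5
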