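import Vale.Agent.P181.H59.DesBig
import Vale.Agent.P181.H59.Hit5
import Vale.Agent.P181.H59.Fill2
import Vale.Agent.P181.H188.Str
import Vale.Agent.P181.H699.Str6
import Vale.Agent.P181.H162.Pick6
import Vale.Agent.P181.H162.Hit6
import Vale.Agent.P181.H12.S6Gen
import Vale.Agent.P181.H502.Des6
import Vale.Agent.P181.H914.Num6
import Vale.Agent.P181.H310.Lb6
import Vale.Agent.P181.H261.MatG
import Vale.Agent.P181.H261.Mat5

/-!
# P181, S6: assembly (`DesAll`, `LB9`, `Main6`)
-/

set_option autoImplicit false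

namespace Vale.Agent.P181.H59.Des6All

open Vale.Agent.P181

/-- the design for all lengths `b ^ ε ≤ m`. -/
theorem des_all : S6.DesAll :=
  S6.desAll
    (S6.des_mid H699.Str6.str_stmt
      (H162.Hit6.hit_stmt H162.Pick6.pick_stmt H12.gen_stmt) H59.fill)
    (H59.des_big H188.strStmt H59.Hit5.hit5)

/-- **(LB9)** -/
theorem lb9 : S6.LB9 := H310.lbStmt des_all H261.mat_g

/-- **S6** -/
theorem main6 : S6.Main6 := H914.num6 des_all H261.mat_stmt

end Vale.Agent.P181.H59.Des6All
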