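import Vale.Agent.P181.S10.Spec
import Vale.Agent.P181.H261.Mat5

/-!
# P181, S10: the orbit inequality for long columns
-/

set_option autoImplicit false

namespace Vale.Agent.P181.H59

open Finset MvPolynomial
open Vale.Agent.P181 Vale.Agent.P181.H280 Vale.Agent.P181.FR Vale.Agent.P181.H188W
open Vale.Agent.P181.T4 Vale.Agent.P181.H463 Vale.Agent.P181.H261 Vale.Agent.P181.H261.Mat5

namespace Dual

/-- the vectors on the stars. -/
noncomputable def yv {b R : ℕ} (st : Fin R → Finset (Fin b)) (w : Fin R × Fin b → ℂ) (i : Fin R)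
    (p : Fin b) : ℂ := if p ∈ st i then w (i, p) else 0

/-- the polynomial version. -/
noncomputable def yP {b R : ℕ} (st : Fin R → Finset (Fin b)) (i : Fin R)
    (p : Fin b) : MvPolynomial (Fin R × Fin b) ℂ := if p ∈ st i then X (i, p) else 0

lemma eval_yP {b R : ℕ} (st : Fin R → Finset (Fin b)) (w : Fin R × Fin b → ℂ) (i : Fin R)
    (p : Fin b) : eval w (yP st i p) = yv st w i p := by
  rw [yP, yv]
  split_ifs
  · rw [eval_X]
  · rw [map_zero]

/-- the minor of the star vectors at distinct representatives. -/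
noncomputable def repP {b R : ℕ} (st : Fin R → Finset (Fin b)) (φ : Fin R → Fin b) :
    MvPolynomial (Fin R × Fin b) ℂ := Matrix.det (Matrix.of fun i k : Fin R => yP st i (φ k))

lemma eval_repP {b R : ℕ} (st : Fin R → Finset (Fin b)) (φ : Fin R → Fin b)
    (w : Fin R × Fin b → ℂ) :
    eval w (repP st φ) = Matrix.det (Matrix.of fun i k : Fin R => yv st w i (φ k)) := by
  rw [repP, RingHom.map_det]
  congr 1
  ext r s
  rw [RingHom.mapMatrix_apply, Matrix.map_apply, Matrix.of_apply, Matrix.of_apply, eval_yP]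

lemma repP_ne {b R : ℕ} (st : Fin R → Finset (Fin b)) (φ : Fin R → Fin b)
    (hφ : Function.Injective φ) (hst : ∀ i, φ i ∈ st i) : repP st φ ≠ 0 := by
  classical
  intro hz
  have h1 : eval (fun x : Fin R × Fin b => if φ x.1 = x.2 then (1 : ℂ) else 0) (repP st φ) = 0 := by
    rw [hz, map_zero]
  rw [eval_repP] at h1
  have h2 : (Matrix.of fun i k : Fin R =>
      yv st (fun x : Fin R × Fin b => if φ x.1 = x.2 then (1 : ℂ) else 0) i (φ k)) = 1 := by
    ext i k
    rw [Matrix.of_apply, yv, Matrix.one_apply]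
    by_cases h : i = k
    · subst h
      rw [if_pos (hst i), if_pos rfl, if_pos rfl]
    · rw [if_neg h]
      split_ifs with h3 h4
      · exact absurd (hφ h4) h
      · rfl
      · rfl
  rw [h2, Matrix.det_one] at h1
  exact one_ne_zero h1

/-- the space orthogonal to the star vectors. -/
noncomputable def orth {b R : ℕ} (y : Fin R → Fin b → ℂ) : Submodule ℂ (Fin b → ℂ) where
  carrier := {v | ∀ i, ∑ p, y i p * v p = 0}
  add_mem' := by
    intro v v' hv hv' i
    have : ∑ p, y i p * (v + v') p = ∑ p, y i p * v p + ∑ p, y i p * v' p := by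
      rw [← sum_add_distrib]
      exact sum_congr rfl fun p _ => by rw [Pi.add_apply, mul_add]
    rw [this, hv i, hv' i, add_zero]
  zero_mem' := by
    intro i
    simp
  smul_mem' := by
    intro c v hv i
    have : ∑ p, y i p * (c • v) p = c * ∑ p, y i p * v p := by
      rw [mul_sum]
      exact sum_congr rfl fun p _ => by rw [Pi.smul_apply, smul_eq_mul]; ring
    rw [this, hv i, mul_zero]

lemma mem_orth {b R : ℕ} {y : Fin R → Fin b → ℂ} {v : Fin b → ℂ} :
    v ∈ orth y ↔ ∀ i, ∑ p, y i p * v p = 0 := Iff.rfl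

/-- prescribed values outside of the representatives. -/
lemma exists_orth {b R : ℕ} (y : Fin R → Fin b → ℂ) (φ : Fin R → Fin b)
    (hφ : Function.Injective φ) (hdet : Matrix.det (Matrix.of fun i k : Fin R => y i (φ k)) ≠ 0)
    (z : Fin b → ℂ) : ∃ v ∈ orth y, ∀ p, (∀ k, φ k ≠ p) → v p = z p := by
  classical
  set M : Matrix (Fin R) (Fin R) ℂ := Matrix.of fun i k : Fin R => y i (φ k) with hM
  have hunit : IsUnit M.det := isUnit_iff_ne_zero.2 hdet
  set r : Fin R → ℂ := fun i => -∑ p, (if ∀ k, φ k ≠ p then y i p * z p else 0) with hr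
  set s : Fin R → ℂ := M⁻¹.mulVec r with hs
  have hMs : M.mulVec s = r := by
    rw [hs, Matrix.mulVec_mulVec, Matrix.mul_nonsing_inv _ hunit, Matrix.one_mulVec]
  let v : Fin b → ℂ := fun p => if h : ∃ k, φ k = p then s h.choose else z p
  have hvφ : ∀ k, v (φ k) = s k := by
    intro k
    have h : ∃ k', φ k' = φ k := ⟨k, rfl⟩
    simp only [v]
    rw [dif_pos h]
    congr 1
    exact hφ h.choose_spec
  have hvz : ∀ p, (∀ k, φ k ≠ p) → v p = z p := by
    intro p hp
    simp only [v]
    rw [dif_neg]
    push Not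
    exact hp
  refine ⟨v, ?_, hvz⟩
  intro i
  have h1 : ∑ p, y i p * v p = ∑ p ∈ univ.filter (fun p => ∃ k, φ k = p), y i p * v p +
      ∑ p ∈ univ.filter (fun p => ¬ ∃ k, φ k = p), y i p * v p :=
    (sum_filter_add_sum_filter_not _ _ _).symm
  have h2 : ∑ p ∈ univ.filter (fun p => ∃ k, φ k = p), y i p * v p = ∑ k, y i (φ k) * s k := by
    have h3 : univ.filter (fun p => ∃ k, φ k = p) = univ.image φ := by
      ext p
      simp
    rw [h3, sum_image fun a _ b _ h => hφ h]
    exact sum_congr rfl fun k _ => by rw [hvφ]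
  have h4 : ∑ p ∈ univ.filter (fun p => ¬ ∃ k, φ k = p), y i p * v p =
      ∑ p, (if ∀ k, φ k ≠ p then y i p * z p else 0) := by
    rw [sum_filter]
    refine sum_congr rfl fun p _ => ?_
    by_cases hp : ∀ k, φ k ≠ p
    · have hp' : ¬ ∃ k, φ k = p := by
        push Not
        exact hp
      rw [if_pos hp', if_pos hp, hvz p hp]
    · have hp' : ¬ ¬ ∃ k, φ k = p := by
        push Not at hp ⊢
        exact hp
      rw [if_neg hp', if_neg hp]
  have h5 : ∑ k, y i (φ k) * s k = r i := by
    have := congrFun hMs i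
    rw [Matrix.mulVec, dotProduct] at this
    rw [← this]
    exact sum_congr rfl fun k _ => rfl
  rw [h1, h2, h4, h5, hr]
  simp

/-- the configuration with rows in the orthogonal space. -/
noncomputable def conf {b a d : ℕ} (w : Fin d → Fin b → ℂ) (t : Fin a × Fin d → ℂ) :
    Fin b → Fin a → ℂ := fun p i => ∑ j, t (i, j) * w j p

/-- the polynomial of a minor. -/
noncomputable def confP {b a d n : ℕ} (w : Fin d → Fin b → ℂ) (hn : n ≤ a) (u : Fin n → Fin b) :
    MvPolynomial (Fin a × Fin d) ℂ :=
  Matrix.det (Matrix.of fun r s : Fin n => ∑ j, X (Fin.castLE hn s, j) * C (w j (u r)))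

lemma eval_confP {b a d n : ℕ} (w : Fin d → Fin b → ℂ) (hn : n ≤ a) (u : Fin n → Fin b)
    (t : Fin a × Fin d → ℂ) : eval t (confP w hn u) = dt hn u (conf w t) := by
  rw [confP, RingHom.map_det, dt]
  congr 1
  ext r s
  rw [RingHom.mapMatrix_apply, Matrix.map_apply, Matrix.of_apply, Matrix.of_apply, conf, map_sum]
  refine sum_congr rfl fun j _ => ?_
  rw [map_mul, eval_X, eval_C]

/-- the minor is a non-zero polynomial if the complement contains distinct representatives. -/
lemma confP_ne {b a R d n : ℕ} (y : Fin R → Fin b → ℂ) (w : Fin d → Fin b → ℂ)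
    (hw : Submodule.span ℂ (Set.range w) = orth y) (hn : n ≤ a) (u : Fin n → Fin b)
    (hu : Function.Injective u) (φ : Fin R → Fin b) (hφ : Function.Injective φ)
    (hdis : ∀ k r, φ k ≠ u r)
    (hdet : Matrix.det (Matrix.of fun i k : Fin R => y i (φ k)) ≠ 0) : confP w hn u ≠ 0 := by
  classical
  -- the rows
  have h1 : ∀ s : Fin n, ∃ v ∈ orth y, ∀ r, v (u r) = if r = s then 1 else 0 := by
    intro s
    obtain ⟨v, hv, hv2⟩ := exists_orth y φ hφ hdet (fun p => if p = u s then 1 else 0)
    refine ⟨v, hv, fun r => ?_⟩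
    rw [hv2 (u r) (fun k => hdis k r)]
    by_cases h : r = s
    · rw [if_pos h, if_pos (by rw [h])]
    · rw [if_neg h, if_neg (fun h' => h (hu h'))]
  choose v hv hv2 using h1
  have h2 : ∀ s : Fin n, ∃ c : Fin d → ℂ, ∑ j, c j • w j = v s := by
    intro s
    have := hv s
    rw [← hw] at this
    exact (Submodule.mem_span_range_iff_exists_fun ℂ).1 this
  choose c hc using h2
  intro hz
  have h3 : eval (fun x : Fin a × Fin d => if h : (x.1 : ℕ) < n then c ⟨x.1, h⟩ x.2 else 0)
      (confP w hn u) = 0 := by rw [hz, map_zero]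
  rw [eval_confP, dt] at h3
  have h4 : (Matrix.of fun r s : Fin n => conf w
      (fun x : Fin a × Fin d => if h : (x.1 : ℕ) < n then c ⟨x.1, h⟩ x.2 else 0) (u r)
      (Fin.castLE hn s)) = 1 := by
    ext r s
    rw [Matrix.of_apply, conf, Matrix.one_apply, ← hv2 s r, ← hc s]
    rw [Finset.sum_apply]
    refine sum_congr rfl fun j _ => ?_
    rw [Pi.smul_apply, smul_eq_mul]
    congr 1
    have h : ((Fin.castLE hn s : Fin a) : ℕ) < n := s.2
    rw [dif_pos h]
    rfl
  rw [h4, Matrix.det_one] at h3
  exact one_ne_zero h3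

/-- the minor vanishes if the column contains a star. -/
lemma dt_conf_zero {b a R d n : ℕ} (y : Fin R → Fin b → ℂ) (w : Fin d → Fin b → ℂ)
    (hw : ∀ j, w j ∈ orth y) (t : Fin a × Fin d → ℂ) (hn : n ≤ a) (u : Fin n → Fin b)
    (hu : Function.Injective u) (i : Fin R) (hi : ∀ p, y i p ≠ 0 → ∃ r, u r = p)
    (hne : ∃ p, y i p ≠ 0) : dt hn u (conf w t) = 0 := by
  classical
  rw [dt]
  obtain ⟨p0, hp0⟩ := hne
  obtain ⟨r0, hr0⟩ := hi p0 hp0
  apply Matrix.exists_vecMul_eq_zero_iff.1
  refine ⟨fun r => y i (u r), ?_, ?_⟩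
  · intro h
    have := congrFun h r0
    simp only [Pi.zero_apply] at this
    rw [hr0] at this
    exact hp0 this
  · funext s
    rw [Matrix.vecMul, dotProduct, Pi.zero_apply]
    have h1 : ∀ r : Fin n, y i (u r) * (Matrix.of fun j k : Fin n =>
        conf w t (u j) (Fin.castLE hn k)) r s =
        ∑ j, t (Fin.castLE hn s, j) * (y i (u r) * w j (u r)) := by
      intro r
      rw [Matrix.of_apply, conf, mul_sum]
      exact sum_congr rfl fun j _ => by ring
    rw [sum_congr rfl fun r _ => h1 r, sum_comm]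
    refine sum_eq_zero fun j _ => ?_
    rw [← mul_sum]
    have h2 : ∑ r, y i (u r) * w j (u r) = ∑ p, y i p * w j p := by
      have h3 : ∑ r, y i (u r) * w j (u r) = ∑ p ∈ univ.image u, y i p * w j p := by
        rw [sum_image fun a _ b _ h => hu h]
      rw [h3]
      apply sum_subset (subset_univ _)
      intro p _ hp
      by_cases h : y i p = 0
      · rw [h, zero_mul]
      · exfalso
        obtain ⟨r, hr⟩ := hi p h
        exact hp (mem_image.2 ⟨r, mem_univ _, hr⟩)
    rw [h2, hw j i, mul_zero]

end Dual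

open Vale.Agent.P181.H59.Dual

/-- **[S10-DUAL]** -/
theorem mat_dual : S10.MatDual := by
  classical
  intro a b R N len lam η hb hD hlen hη hcol hsum
  obtain ⟨st, hst⟩ := hD
  obtain ⟨d, hd, hds⟩ := exists_balanced b (∑ i, η i) hb
  -- sizes
  have hlenC : ∀ c, (univ.filter fun i : Fin a => (i : ℕ) < len c).card = len c := by
    intro c
    rw [Fin.card_filter_val_lt, min_eq_right (hlen c).1]
  have hlenb : ∀ c, len c ≤ b := fun c => by have := (hlen c).2; omega
  have hsum2 : ∑ c, len c + ∑ i, η i = a * b := by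
    rw [← hsum]
    have h1 : ∑ i, lam i = ∑ i : Fin a, ((univ.filter fun c => (i : ℕ) < len c).card + η i) :=
      sum_congr rfl fun i _ => (hcol i).symm
    rw [h1, sum_add_distrib]
    congr 1
    calc ∑ c, len c = ∑ c, (univ.filter fun i : Fin a => (i : ℕ) < len c).card :=
          sum_congr rfl fun c _ => (hlenC c).symm
      _ = ∑ i : Fin a, (univ.filter fun c => (i : ℕ) < len c).card := by
          simp only [card_filter]
          exact sum_comm
  have hda : ∀ p, d p ≤ a := by
    intro p
    by_contra h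
    push Not at h
    have h1 : ∀ q, a ≤ d q := fun q => by have := hd p q; omega
    have h2 : ∑ q : Fin b, a < ∑ q, d q :=
      sum_lt_sum (fun q _ => h1 q) ⟨p, mem_univ p, h⟩
    rw [sum_const, card_univ, Fintype.card_fin, smul_eq_mul, hds, mul_comm] at h2
    omega
  have hsum3 : ∑ p, (a - d p) = ∑ c, len c := by
    have h2 : ∑ p, (a - d p) + ∑ p, d p = a * b := by
      rw [← sum_add_distrib]
      have h3 : ∀ p : Fin b, a - d p + d p = a := fun p => Nat.sub_add_cancel (hda p)
      rw [sum_congr rfl fun p _ => h3 p, sum_const, card_univ, Fintype.card_fin, smul_eq_mul,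
        mul_comm]
    omega
  have hadN : ∀ p, a - d p ≤ N := by
    intro p
    by_contra h
    push Not at h
    have h1 : ∀ q, N ≤ a - d q := fun q => by
      have := hd q p
      have := hda q
      have := hda p
      omega
    have h2 : ∑ q : Fin b, N < ∑ q, (a - d q) :=
      sum_lt_sum (fun q _ => h1 q) ⟨p, mem_univ p, h⟩
    have h3 : ∑ c, len c ≤ ∑ _c : Fin N, b := sum_le_sum fun c _ => hlenb c
    rw [sum_const, card_univ, Fintype.card_fin, smul_eq_mul] at h2 h3
    rw [hsum3, mul_comm] at h2
    omega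
  -- the degree functions of the complements
  have hgd1 : ∀ τ : Equiv.Perm (Fin b), ∀ p q,
      N - (a - d (τ.symm p)) ≤ N - (a - d (τ.symm q)) + 1 := by
    intro τ p q
    have h1 := hd (τ.symm p) (τ.symm q)
    have h2 := hda (τ.symm p)
    have h3 := hda (τ.symm q)
    omega
  have hgd2 : ∀ τ : Equiv.Perm (Fin b), ∑ p, (N - (a - d (τ.symm p))) =
      ∑ c, (b - len c) := by
    intro τ
    have h1 : ∑ p, (N - (a - d (τ.symm p))) = ∑ p, (N - (a - d p)) :=
      Equiv.sum_comp τ.symm fun p => N - (a - d p)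
    have h2 : ∑ p, (N - (a - d p)) + ∑ p, (a - d p) = N * b := by
      rw [← sum_add_distrib]
      have h3 : ∀ p : Fin b, N - (a - d p) + (a - d p) = N :=
        fun p => Nat.sub_add_cancel (hadN p)
      rw [sum_congr rfl fun p _ => h3 p, sum_const, card_univ, Fintype.card_fin, smul_eq_mul,
        mul_comm]
    have h4 : ∑ c, (b - len c) + ∑ c, len c = N * b := by
      rw [← sum_add_distrib]
      have h3 : ∀ c : Fin N, b - len c + len c = b := fun c => Nat.sub_add_cancel (hlenb c)
      rw [sum_congr rfl fun c _ => h3 c, sum_const, card_univ, Fintype.card_fin, smul_eq_mul]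
    rw [h1]
    omega
  have hex : ∀ τ : Equiv.Perm (Fin b), ∃ B : Fin N → Finset (Fin b),
      (∀ c, (B c).card = b - len c) ∧ (∀ p, dgr B p = N - (a - d (τ.symm p))) ∧
      (∀ c, HasSDR st (B c)) ∧
      ∀ ρ : Equiv.Perm (Fin b), ρ ≠ 1 → ∃ c i, Disjoint ((B c).image ρ) (st i) := fun τ =>
    hst (fun p => N - (a - d (τ.symm p))) (hgd1 τ) (hgd2 τ)
  choose B hB1 hB2 hB3 hB4 using hex
  have hAcard : ∀ τ c, ((B τ c)ᶜ : Finset (Fin b)).card = len c := by
    intro τ c
    rw [card_compl, Fintype.card_fin, hB1]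
    have := hlenb c
    omega
  let u : Equiv.Perm (Fin b) → (c : Fin N) → Fin (len c) → Fin b := fun τ c =>
    ((B τ c)ᶜ : Finset (Fin b)).orderEmbOfFin (hAcard τ c)
  have hu : ∀ τ c, Function.Injective (u τ c) := fun τ c =>
    (((B τ c)ᶜ : Finset (Fin b)).orderEmbOfFin (hAcard τ c)).injective
  have huA : ∀ τ c s, u τ c s ∉ B τ c := fun τ c s =>
    mem_compl.1 (orderEmbOfFin_mem _ (hAcard τ c) s)
  have hur : ∀ τ c p, p ∉ B τ c → ∃ s, u τ c s = p := by
    intro τ c p hp
    have hr : p ∈ Set.range (((B τ c)ᶜ : Finset (Fin b)).orderEmbOfFin (hAcard τ c)) := by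
      rw [range_orderEmbOfFin, mem_coe, mem_compl]
      exact hp
    exact hr
  choose φ hφ1 hφ2 using hB3
  -- the star vectors
  obtain ⟨w0, hw0⟩ := exists_common
    (fun k : Equiv.Perm (Fin b) × Fin N => repP st (φ k.1 k.2))
    (fun k => repP_ne st _ (hφ1 k.1 k.2) fun i => (hφ2 k.1 k.2 i).2)
  set y : Fin R → Fin b → ℂ := yv st w0 with hy
  have hdet : ∀ τ c, Matrix.det (Matrix.of fun i k : Fin R => y i (φ τ c k)) ≠ 0 := by
    intro τ c
    have := hw0 (τ, c)
    rwa [eval_repP] at this
  -- generators of the orthogonal space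
  obtain ⟨dd, w, hw⟩ := Submodule.fg_iff_exists_fin_generating_family.1
    (IsNoetherian.noetherian (orth y))
  have hwm : ∀ j, w j ∈ orth y := fun j => by
    rw [← hw]
    exact Submodule.subset_span (Set.mem_range_self j)
  -- the common point
  obtain ⟨t, ht⟩ := exists_common
    (fun k : Equiv.Perm (Fin b) × Fin N => confP w (hlen k.2).1 (u k.1 k.2))
    (fun k => confP_ne y w hw (hlen k.2).1 (u k.1 k.2) (hu _ _) (φ k.1 k.2) (hφ1 _ _)
      (fun i r h => huA k.1 k.2 r (h ▸ (hφ2 k.1 k.2 i).1)) (hdet _ _))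
  refine orbit_gt hη len (fun c => (hlen c).1) hcol d hd hds
    (fun τ c s => τ.symm (u τ c s)) ?_ (conf w t) ?_
  · intro τ j
    have h1 : ∀ c, (univ.filter fun i => τ.symm (u τ c i) = j).card =
        if τ j ∈ B τ c then 0 else 1 := by
      intro c
      have hset : (univ.filter fun i => τ.symm (u τ c i) = j) =
          univ.filter fun i => u τ c i = τ j := by
        ext i
        simp only [mem_filter, mem_univ, true_and]
        rw [Equiv.symm_apply_eq]
      rw [hset]
      split_ifs with h
      · rw [card_eq_zero, filter_eq_empty_iff]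
        intro i _ hi
        exact huA τ c i (hi ▸ h)
      · obtain ⟨i0, hi0⟩ := hur τ c (τ j) h
        rw [card_eq_one]
        refine ⟨i0, ?_⟩
        ext i
        simp only [mem_filter, mem_univ, true_and, mem_singleton]
        constructor
        · intro hi
          exact hu τ c (hi.trans hi0.symm)
        · intro hi
          rw [hi]
          exact hi0
    have h2 := hB2 τ (τ j)
    rw [dgr, Equiv.symm_apply_apply] at h2
    have h3 : (∑ c, if τ j ∈ B τ c then 0 else 1) +
        (univ.filter fun c => τ j ∈ B τ c).card = N := by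
      rw [card_filter, ← sum_add_distrib]
      have h4 : ∀ c : Fin N, (if τ j ∈ B τ c then 0 else 1) + (if τ j ∈ B τ c then 1 else 0) =
          1 := fun c => by split_ifs <;> rfl
      rw [sum_congr rfl fun c _ => h4 c]
      simp
    rw [sum_congr rfl fun c _ => h1 c]
    have h5 := hadN j
    have h6 := hda j
    omega
  · intro τ σ
    constructor
    · intro h
      by_contra hne
      obtain ⟨c, i, hdis⟩ := hB4 τ (σ * τ⁻¹) (fun h' => hne (by
        rw [mul_inv_eq_one] at h'
        exact h'))
      apply h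
      refine prod_eq_zero (mem_univ c) ?_
      have hinj : Function.Injective fun s => σ (τ.symm (u τ c s)) := fun s s' hs =>
        hu τ c (τ.symm.injective (σ.injective hs))
      refine dt_conf_zero y w hwm t (hlen c).1 _ hinj i ?_ ?_
      · intro p hp
        have hpst : p ∈ st i := by
          by_contra hcon
          apply hp
          rw [hy, yv, if_neg hcon]
        have hpB : (τ (σ.symm p)) ∉ B τ c := by
          intro hcon
          refine (Finset.disjoint_left.1 hdis) ?_ hpst
          rw [mem_image]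
          refine ⟨τ (σ.symm p), hcon, ?_⟩
          simp
        obtain ⟨s, hs⟩ := hur τ c _ hpB
        refine ⟨s, ?_⟩
        simp [hs]
      · by_contra hcon
        push Not at hcon
        apply hdet τ c
        apply Matrix.det_eq_zero_of_row_eq_zero i
        intro k
        rw [Matrix.of_apply]
        exact hcon _
    · intro h
      subst h
      rw [prod_ne_zero_iff]
      intro c _
      have h1 := ht (σ, c)
      rw [eval_confP] at h1
      have h2 : (fun s => σ (σ.symm (u σ c s))) = u σ c := by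
        funext s
        rw [Equiv.apply_symm_apply]
      rw [h2]
      exact h1

end Vale.Agent.P181.H59
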