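import Vale.Agent.P181.H59.Done
import Vale.Agent.P181.T7.Last
import Vale.Agent.P181.H530.Pad
import Vale.Agent.P181.H530.Zero

/-!
# P181, S5: all numbers of rows
-/

set_option autoImplicit false

namespace Vale.Agent.P181.H59

open Vale.Agent.P181 Vale.Agent.P181.H280 Vale.Agent.P181.T7

/-- All numbers of rows from the case of `a` rows, with a bound for the entries. -/
theorem all_n_le {a b : ℕ} {X : ℝ} (hX : 0 ≤ X)
    (h : ∀ lam : Fin a → ℕ, Antitone lam → ∑ i, lam i = a * b → (∀ i, (lam i : ℝ) ≤ X) →
      plethMult a b a lam ≤ plethMult b a a lam) (n : ℕ) (lam : Fin n → ℕ)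
    (hlX : ∀ i, (lam i : ℝ) ≤ X) :
    plethMult a b n lam ≤ plethMult b a n lam := by
  have hP : PadStmt := H530.pad_stmt
  have hZ : ZeroStmt := H530.zero_stmt
  by_cases h0 : plethMult a b n lam = 0
  · rw [h0]
    exact Nat.zero_le _
  · obtain ⟨hanti, hsum, hz⟩ := hZ a b n lam h0
    rcases Nat.le_total n a with hna | hna
    · obtain ⟨k, rfl⟩ := Nat.exists_eq_add_of_le hna
      rw [← hP (n + k) b n k lam, ← hP b (n + k) n k lam]
      apply h
      · intro i j hij
        have hij' : (i : ℕ) ≤ j := hij
        dsimp only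
        split_ifs with h1 h2 h2
        · exact hanti (show (⟨i, h2⟩ : Fin n) ≤ ⟨j, h1⟩ from hij')
        · omega
        · exact Nat.zero_le _
        · exact le_rfl
      · rw [Fin.sum_univ_add]
        have h1 : ∑ i : Fin n, (if h : ((Fin.castAdd k i : Fin (n + k)) : ℕ) < n then
            lam ⟨(Fin.castAdd k i : Fin (n + k)), h⟩ else 0) = ∑ i, lam i := by
          apply Finset.sum_congr rfl
          intro i _
          rw [dif_pos (by simp)]
          congr 1
        have h2 : ∑ i : Fin k, (if h : ((Fin.natAdd n i : Fin (n + k)) : ℕ) < n then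
            lam ⟨(Fin.natAdd n i : Fin (n + k)), h⟩ else 0) = 0 := by
          apply Finset.sum_eq_zero
          intro i _
          rw [dif_neg (by simp)]
        rw [h1, h2, add_zero, hsum]
      · intro i
        split_ifs with h1
        · exact hlX _
        · simpa using hX
    · obtain ⟨k, rfl⟩ := Nat.exists_eq_add_of_le hna
      set mu : Fin a → ℕ := fun i => lam (Fin.castAdd k i) with hmu
      have hlam : lam = fun i : Fin (a + k) => if h : (i : ℕ) < a then mu ⟨i, h⟩ else 0 := by
        funext i
        by_cases hi : (i : ℕ) < a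
        · rw [dif_pos hi, hmu]
          congr 1
        · rw [dif_neg hi]
          exact hz i (by omega)
      rw [hlam, hP a b a k mu, hP b a a k mu]
      apply h
      · intro i j hij
        have hij' : (i : ℕ) ≤ j := hij
        exact hanti (show Fin.castAdd k i ≤ Fin.castAdd k j from hij')
      · rw [← hsum, Fin.sum_univ_add]
        have h2 : ∑ i : Fin k, lam (Fin.natAdd a i) = 0 := by
          apply Finset.sum_eq_zero
          intro i _
          exact hz _ (by simp)
        rw [h2, add_zero]
      · intro i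
        exact hlX _

/-- **(S5), all numbers of rows.** -/
theorem short_all_n (ε δ : ℝ) (hε : 0 < ε) (hδ : 0 < δ) :
    ∃ a₀ : ℕ, ∀ a : ℕ, a₀ ≤ a → ∀ (b n : ℕ) (lam : Fin n → ℕ), (1 + δ) * (a : ℝ) ≤ b →
      (∀ i, (lam i : ℝ) ≤ a * (b : ℝ) ^ (1 / 2 - ε)) →
      plethMult a b n lam ≤ plethMult b a n lam := by
  obtain ⟨a₀, h⟩ := Filter.eventually_atTop.1 (main ε δ hε hδ)
  refine ⟨a₀, fun a ha b n lam hb hl => ?_⟩
  exact all_n_le (by positivity) (fun mu h1 h2 h3 => h a ha b hb mu h1 h2 h3) n lam hl

end Vale.Agent.P181.H59
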