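import Vale.Agent.P181.S10.Spec
import Vale.Agent.P181.H59.AllN

/-!
# P181, S10: the glue
-/

set_option autoImplicit false

namespace Vale.Agent.P181.H59

open Vale.Agent.P181 Vale.Agent.P181.H280 Vale.Agent.P181.S6 Vale.Agent.P181.S10

/-- **[S10-ALL]** -/
theorem all10 : All10 := by
  intro h10 h6 hB ε hε
  have e1 := h10 ε hε
  have e2 := h6 (ε / 2) 1 (by linarith) one_pos
  obtain ⟨a₀, h⟩ := Filter.eventually_atTop.1 (e1.and (e2.and (Filter.eventually_ge_atTop 1)))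
  refine ⟨a₀, fun a ha b n lam hab hl => ?_⟩
  obtain ⟨H1, H2, ha1⟩ := h a ha
  have ha1R : (1 : ℝ) ≤ a := by exact_mod_cast ha1
  have ha0 : (0 : ℝ) < a := by linarith
  have habR : (a : ℝ) ≤ b := by exact_mod_cast hab
  have hb0 : (0 : ℝ) < b := by linarith
  rcases Nat.le_total ((a - 1) ^ 2) b with hbig | hsmall
  · exact hB a b n lam hbig
  · have hX : 0 ≤ ((b : ℝ) - a) * (a : ℝ) ^ (1 - ε) :=
      mul_nonneg (by linarith) (by positivity)
    refine all_n_le hX (fun mu hmu hsum hX2 => ?_) n lam hl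
    rcases Nat.le_total b (2 * a) with hb2 | hb2
    · exact H1 b hab hb2 mu hmu hsum hX2
    · have hb2R : (1 + 1) * (a : ℝ) ≤ b := by
        have : (2 : ℝ) * a ≤ b := by exact_mod_cast hb2
        linarith
      refine H2 b hb2R mu hmu hsum fun i => (hX2 i).trans ?_
      have hba : (b : ℝ) ≤ (a : ℝ) ^ (2 : ℝ) := by
        have h1 : b ≤ a ^ 2 := hsmall.trans (Nat.pow_le_pow_left (Nat.sub_le a 1) 2)
        have h2 : (b : ℝ) ≤ (a : ℝ) ^ 2 := by exact_mod_cast h1
        rwa [← Real.rpow_natCast] at h2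
      have h3 : (b : ℝ) ^ (ε / 2) ≤ (a : ℝ) ^ ε := by
        calc (b : ℝ) ^ (ε / 2) ≤ ((a : ℝ) ^ (2 : ℝ)) ^ (ε / 2) :=
              Real.rpow_le_rpow hb0.le hba (by linarith)
          _ = (a : ℝ) ^ ε := by
              rw [← Real.rpow_mul ha0.le]
              congr 1
              ring
      have h4 : (a : ℝ) ^ (1 - ε) = a / (a : ℝ) ^ ε := by
        rw [Real.rpow_sub ha0, Real.rpow_one]
      have h5 : (b : ℝ) ^ (1 - ε / 2) = b / (b : ℝ) ^ (ε / 2) := by
        rw [Real.rpow_sub hb0, Real.rpow_one]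
      have h6 : (0 : ℝ) < (b : ℝ) ^ (ε / 2) := by positivity
      calc ((b : ℝ) - a) * (a : ℝ) ^ (1 - ε) ≤ b * (a : ℝ) ^ (1 - ε) := by
            apply mul_le_mul_of_nonneg_right _ (by positivity)
            linarith
        _ = (a * b) / (a : ℝ) ^ ε := by rw [h4]; ring
        _ ≤ (a * b) / (b : ℝ) ^ (ε / 2) := by gcongr
        _ = a * (b : ℝ) ^ (1 - ε / 2) := by rw [h5]; ring

end Vale.Agent.P181.H59
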