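import Vale.Agent.P181.H59.Des6All
import Vale.Agent.P181.H59.AllN

/-!
# P181, S6: all numbers of rows
-/

set_option autoImplicit false

namespace Vale.Agent.P181.H59

open Vale.Agent.P181 Vale.Agent.P181.H280 Vale.Agent.P181.T7

/-- **(S6), all numbers of rows.** -/
theorem short6_all_n (ε δ : ℝ) (hε : 0 < ε) (hδ : 0 < δ) :
    ∃ a₀ : ℕ, ∀ a : ℕ, a₀ ≤ a → ∀ (b n : ℕ) (lam : Fin n → ℕ), (1 + δ) * (a : ℝ) ≤ b →
      (∀ i, (lam i : ℝ) ≤ a * (b : ℝ) ^ (1 - ε)) →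
      plethMult a b n lam ≤ plethMult b a n lam := by
  obtain ⟨a₀, h⟩ := Filter.eventually_atTop.1 (Des6All.main6 ε δ hε hδ)
  refine ⟨a₀, fun a ha b n lam hb hl => ?_⟩
  exact all_n_le (by positivity) (fun mu h1 h2 h3 => h a ha b hb mu h1 h2 h3) n lam hl

end Vale.Agent.P181.H59
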