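import Vale.Agent.P181.H59.Fill2

/-!
# P181, S5: the design from a star system and certification columns
-/

set_option autoImplicit false

namespace Vale.Agent.P181.H59

open Finset Vale.Agent.P181.H162

theorem HasSDR.mono {ι α : Type} {st : ι → Finset α} {A B : Finset α} (h : HasSDR st A)
    (hAB : A ⊆ B) : HasSDR st B := by
  obtain ⟨φ, h1, h2⟩ := h
  exact ⟨φ, h1, fun i => ⟨hAB (h2 i).1, (h2 i).2⟩⟩

theorem Sys.le_card {b g n : ℕ} (S : Sys b g n) (i : Fin n ⊕ Fin n) :
    2 ^ g ≤ (S.st i).card := by
  classical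
  have h1 : (univ : Finset (Fin g → Bool)) ⊆ (S.st i).image S.col := by
    intro κ _
    obtain ⟨p, hp, hp2⟩ := S.colour i κ
    exact mem_image.2 ⟨p, hp, hp2⟩
  have h2 := (card_le_card h1).trans card_image_le
  simpa using h2

/-- A permutation for which the preimage of every star contains a star is the identity. -/
theorem Sys.eq_one {b g n : ℕ} (S : Sys b g n) (hg : 1 ≤ g) (ρ : Equiv.Perm (Fin b))
    (h : ∀ i, ∃ j, S.st j ⊆ (S.st i).image ρ.symm) : ρ = 1 := by
  classical
  choose f hf using h
  have hcard : 2 ≤ 2 ^ g := by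
    calc 2 = 2 ^ 1 := rfl
      _ ≤ 2 ^ g := Nat.pow_le_pow_right (by norm_num) hg
  have hinter : ∀ i i', i ≠ i' → (S.st i ∩ S.st i').card ≤ 1 := by
    rintro (y | z) (y' | z') hne
    · have := S.disjL y y' (fun h => hne (by rw [h]))
      rw [disjoint_iff_inter_eq_empty.1 this]
      simp
    · exact S.inter y z'
    · rw [inter_comm]
      exact S.inter y' z
    · have := S.disjM z z' (fun h => hne (by rw [h]))
      rw [disjoint_iff_inter_eq_empty.1 this]
      simp
  have hinj : Function.Injective f := by
    intro i i' hii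
    by_contra hne
    have h1 : S.st (f i) ⊆ (S.st i ∩ S.st i').image ρ.symm := by
      intro x hx
      have h2 := hf i hx
      have h3 := hf i' (hii ▸ hx)
      rw [mem_image] at h2 h3
      obtain ⟨y, hy, hyx⟩ := h2
      obtain ⟨y', hy', hyx'⟩ := h3
      have : y = y' := ρ.symm.injective (hyx.trans hyx'.symm)
      subst this
      exact mem_image.2 ⟨y, mem_inter.2 ⟨hy, hy'⟩, hyx⟩
    have h2 := (card_le_card h1).trans card_image_le
    have h3 := hinter i i' hne
    have h4 := S.le_card (f i)
    omega
  have hbij : Function.Bijective f := Finite.injective_iff_bijective.1 hinj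
  have hcard2 : ∀ i, ((S.st i).image ρ.symm).card = (S.st i).card := fun i =>
    card_image_of_injective _ ρ.symm.injective
  have hsum : ∑ i, (S.st (f i)).card = ∑ i, (S.st i).card :=
    Function.Bijective.sum_comp hbij (fun i => (S.st i).card)
  have hle : ∀ i ∈ (univ : Finset (Fin n ⊕ Fin n)), (S.st (f i)).card ≤ (S.st i).card := by
    intro i _
    rw [← hcard2 i]
    exact card_le_card (hf i)
  have heq := (sum_eq_sum_iff_of_le hle).1 hsum
  have heq2 : ∀ i, S.st (f i) = (S.st i).image ρ.symm := by
    intro i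
    refine eq_of_subset_of_card_le (hf i) ?_
    rw [hcard2, heq i (mem_univ i)]
  refine S.rigid ρ fun j => ?_
  obtain ⟨i, rfl⟩ := hbij.2 j
  refine ⟨i, ?_⟩
  rw [heq2, image_image]
  have : (ρ ∘ ρ.symm : Fin b → Fin b) = id := by
    funext x
    simp
  rw [this, image_id]

/-- counting a residue class. -/
theorem card_mod_le (N h v : ℕ) :
    ((range N).filter fun c => c % h = v).card ≤ N / h + 1 := by
  have h1 : ((range N).filter fun c => c % h = v).card ≤ (range (N / h + 1)).card := by
    refine card_le_card_of_injOn (fun c => c / h) ?_ ?_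
    · intro c hc
      rw [mem_coe, mem_filter, mem_range] at hc
      rw [mem_coe, mem_range]
      exact Nat.lt_succ_of_le (Nat.div_le_div_right hc.1.le)
    · intro c hc c' hc' hcc
      rw [mem_coe, mem_filter] at hc hc'
      have h2 : c / h = c' / h := hcc
      rw [← Nat.div_add_mod c h, ← Nat.div_add_mod c' h, hc.2, hc'.2, h2]
  rwa [card_range] at h1

theorem card_mod_le' (N h v : ℕ) :
    ((range N).filter fun c => (c + 1) % h = v).card ≤ N / h + 1 := by
  have h1 : ((range N).filter fun c => (c + 1) % h = v).card ≤ (range (N / h + 1)).card := by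
    refine card_le_card_of_injOn (fun c => (c + 1) / h) ?_ ?_
    · intro c hc
      rw [mem_coe, mem_filter, mem_range] at hc
      rw [mem_coe, mem_range]
      exact Nat.lt_succ_of_le (Nat.div_le_div_right hc.1)
    · intro c hc c' hc' hcc
      rw [mem_coe, mem_filter] at hc hc'
      have h2 : (c + 1) / h = (c' + 1) / h := hcc
      have h3 : c + 1 = c' + 1 := by
        rw [← Nat.div_add_mod (c + 1) h, ← Nat.div_add_mod (c' + 1) h, hc.2, hc'.2, h2]
      omega
  rwa [card_range] at h1

theorem card_fin_filter {N : ℕ} (P : ℕ → Prop) [DecidablePred P] :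
    ((univ : Finset (Fin N)).filter fun c : Fin N => P (c : ℕ)).card = ((range N).filter P).card := by
  have h1 : ((univ : Finset (Fin N)).filter fun c : Fin N => P (c : ℕ)).map Fin.valEmbedding =
      (range N).filter P := by
    ext x
    simp only [mem_map, mem_filter, mem_univ, true_and, Fin.valEmbedding_apply, mem_range]
    constructor
    · rintro ⟨c, hc, rfl⟩
      exact ⟨c.2, hc⟩
    · rintro ⟨h1, h2⟩
      exact ⟨⟨x, h1⟩, h2, rfl⟩
  rw [← h1, card_map]

/-- **The design from a star system and certification columns.** -/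
theorem design_of {b g n N N1 e : ℕ} (S : Sys b g n) (hg : 1 ≤ g) (hN : N1 ≤ N)
    (len : Fin N → ℕ) (hb : 0 < b) (hn : ∀ c, n + n ≤ len c) (he : ∀ c, len c + e ≤ b)
    (A1 : Fin N1 → Finset (Fin b)) (hA1 : Cert S (fun c => len (Fin.castLE hN c)) A1)
    (hroom : b * (N1 + 2 * (N / 2 ^ g + 1) + 1) + e * (N1 + 2 * (N / 2 ^ g + 1)) <
      e * ((∑ c, len c) / b + 1)) :
    Design b (n + n) N len := by
  classical
  obtain ⟨hA1c, hA1s, hA1k⟩ := hA1
  have h2g : 0 < 2 ^ g := Nat.pow_pos (by norm_num)
  -- colours are numbered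
  have hcolcard : Fintype.card (Fin g → Bool) = 2 ^ g := by simp
  let ec : (Fin g → Bool) ≃ Fin (2 ^ g) := Fintype.equivFinOfCardEq hcolcard
  let k1 : Fin N → (Fin g → Bool) := fun c => ec.symm ⟨(c : ℕ) % 2 ^ g, Nat.mod_lt _ h2g⟩
  let k2 : Fin N → (Fin g → Bool) := fun c => ec.symm ⟨((c : ℕ) + 1) % 2 ^ g, Nat.mod_lt _ h2g⟩
  have hk12 : ∀ c, k1 c ≠ k2 c := by
    intro c h
    have h1 := congrArg Fin.val (ec.symm.injective h)
    simp only at h1
    have h2 : 2 ≤ 2 ^ g := by
      calc 2 = 2 ^ 1 := rfl
        _ ≤ 2 ^ g := Nat.pow_le_pow_right (by norm_num) hg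
    have h3 := (Nat.mod_lt (c : ℕ) h2g)
    rw [Nat.add_mod, Nat.mod_eq_of_lt (show 1 < 2 ^ g by omega)] at h1
    rcases Nat.lt_or_ge ((c : ℕ) % 2 ^ g + 1) (2 ^ g) with h4 | h4
    · rw [Nat.mod_eq_of_lt h4] at h1
      omega
    · have h5 : (c : ℕ) % 2 ^ g + 1 = 2 ^ g := by omega
      rw [h5, Nat.mod_self] at h1
      omega
  -- representatives of given colour
  choose rep hrep hrepc using S.colour
  let G : Fin N → Finset (Fin b) := fun c =>
    if h : (c : ℕ) < N1 then A1 ⟨c, h⟩ else
      (univ.image fun y : Fin n => rep (Sum.inl y) (k1 c)) ∪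
        (univ.image fun z : Fin n => rep (Sum.inr z) (k2 c))
  have hG1 : ∀ (c : Fin N1), G (Fin.castLE hN c) = A1 c := by
    intro c
    have h : ((Fin.castLE hN c : Fin N) : ℕ) < N1 := c.2
    simp only [G]
    rw [dif_pos h]
    congr 1
  have hGcard : ∀ c, (G c).card ≤ len c := by
    intro c
    by_cases h : (c : ℕ) < N1
    · have h1 : c = Fin.castLE hN ⟨c, h⟩ := rfl
      rw [h1, hG1, hA1c]
    · simp only [G]
      rw [dif_neg h]
      refine (card_union_le _ _).trans (le_trans (Nat.add_le_add card_image_le card_image_le) ?_)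
      simpa using hn c
  have hGdg : ∀ p, dg G p ≤ N1 + 2 * (N / 2 ^ g + 1) := by
    intro p
    have h1 : (univ.filter fun c => p ∈ G c) ⊆
        (univ.filter fun c : Fin N => (c : ℕ) < N1) ∪
          ((univ.filter fun c : Fin N => (c : ℕ) % 2 ^ g = (ec (S.col p) : ℕ)) ∪
          (univ.filter fun c : Fin N => ((c : ℕ) + 1) % 2 ^ g = (ec (S.col p) : ℕ))) := by
      intro c hc
      rw [mem_filter] at hc
      rw [mem_union, mem_union, mem_filter, mem_filter, mem_filter]
      by_cases h : (c : ℕ) < N1
      · exact Or.inl ⟨mem_univ _, h⟩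
      · right
        have h2 := hc.2
        simp only [G] at h2
        rw [dif_neg h, mem_union, mem_image, mem_image] at h2
        rcases h2 with ⟨y, -, hy⟩ | ⟨z, -, hz⟩
        · left
          refine ⟨mem_univ _, ?_⟩
          rw [← hy, hrepc]
          simp only [k1, Equiv.apply_symm_apply]
        · right
          refine ⟨mem_univ _, ?_⟩
          rw [← hz, hrepc]
          simp only [k2, Equiv.apply_symm_apply]
    have h2 := (card_le_card h1).trans ((card_union_le _ _).trans
      (Nat.add_le_add_left (card_union_le _ _) _))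
    have h3 : (univ.filter fun c : Fin N => (c : ℕ) < N1).card ≤ N1 := by
      rw [card_fin_filter (fun c => c < N1)]
      calc ((range N).filter fun c => c < N1).card ≤ (range N1).card := by
            refine card_le_card fun c hc => ?_
            rw [mem_filter] at hc
            exact mem_range.2 hc.2
        _ = N1 := card_range _
    have h4 : (univ.filter fun c : Fin N => (c : ℕ) % 2 ^ g = (ec (S.col p) : ℕ)).card ≤
        N / 2 ^ g + 1 := by
      rw [card_fin_filter (fun c => c % 2 ^ g = (ec (S.col p) : ℕ))]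
      exact card_mod_le _ _ _
    have h5 : (univ.filter fun c : Fin N => ((c : ℕ) + 1) % 2 ^ g = (ec (S.col p) : ℕ)).card ≤
        N / 2 ^ g + 1 := by
      rw [card_fin_filter (fun c => (c + 1) % 2 ^ g = (ec (S.col p) : ℕ))]
      exact card_mod_le' _ _ _
    unfold dg
    omega
  refine ⟨fun i => S.st (finSumFinEquiv.symm i), fun gd hbal hsum => ?_⟩
  -- the smallest degree
  obtain ⟨p0, -, hp0⟩ := exists_min_image (univ : Finset (Fin b)) gd ⟨⟨0, hb⟩, mem_univ _⟩
  have hlo : ∀ p, gd p0 ≤ gd p := fun p => hp0 p (mem_univ p)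
  have hκ : gd p0 = (∑ c, len c) / b := by
    rw [← hsum]
    symm
    apply Nat.div_eq_of_lt_le
    · calc gd p0 * b = ∑ _p : Fin b, gd p0 := by simp [mul_comm]
        _ ≤ ∑ p, gd p := sum_le_sum fun p _ => hlo p
    · calc ∑ p, gd p < ∑ _p : Fin b, (gd p0 + 1) :=
            sum_lt_sum (fun p _ => hbal p p0) ⟨p0, mem_univ _, Nat.lt_succ_self _⟩
        _ = (gd p0 + 1) * b := by simp [mul_comm]
  obtain ⟨A, hGA, hAcard, hAdg⟩ := exists_fill2 len G gd (gd p0) (N1 + 2 * (N / 2 ^ g + 1)) e
    hGcard (fun c => by rw [Fintype.card_fin]; exact he c) hGdg (fun p => ⟨hlo p, hbal p p0⟩) hsum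
    (by rw [Fintype.card_fin, hκ]; exact hroom)
  refine ⟨A, hAcard, fun p => hAdg p, fun c => ?_, fun ρ hρ => ?_⟩
  · -- distinct representatives
    have h0 : HasSDR S.st (A c) := by
      by_cases h : (c : ℕ) < N1
      · refine (hA1s ⟨c, h⟩).mono ?_
        rw [← hG1]
        exact hGA c
      · refine HasSDR.mono ?_ (hGA c)
        simp only [G]
        rw [dif_neg h]
        refine ⟨fun i => match i with
          | Sum.inl y => rep (Sum.inl y) (k1 c)
          | Sum.inr z => rep (Sum.inr z) (k2 c), ?_, ?_⟩
        · rintro (y | z) (y' | z') hh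
          · simp only at hh
            by_contra hne
            have h1 : y ≠ y' := fun h => hne (by rw [h])
            refine (disjoint_left.1 (S.disjL y y' h1)) (hrep (Sum.inl y) (k1 c)) ?_
            rw [hh]
            exact hrep _ _
          · simp only at hh
            exfalso
            have h1 := congrArg S.col hh
            rw [hrepc, hrepc] at h1
            exact hk12 c h1
          · simp only at hh
            exfalso
            have h1 := congrArg S.col hh
            rw [hrepc, hrepc] at h1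
            exact hk12 c h1.symm
          · simp only at hh
            by_contra hne
            have h1 : z ≠ z' := fun h => hne (by rw [h])
            refine (disjoint_left.1 (S.disjM z z' h1)) (hrep (Sum.inr z) (k2 c)) ?_
            rw [hh]
            exact hrep _ _
        · rintro (y | z)
          · exact ⟨mem_union_left _ (mem_image.2 ⟨y, mem_univ _, rfl⟩), hrep _ _⟩
          · exact ⟨mem_union_right _ (mem_image.2 ⟨z, mem_univ _, rfl⟩), hrep _ _⟩
    obtain ⟨φ, h1, h2⟩ := h0
    exact ⟨fun i => φ (finSumFinEquiv.symm i), h1.comp finSumFinEquiv.symm.injective,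
      fun i => h2 _⟩
  · -- every permutation is detected
    by_contra hcon
    push Not at hcon
    refine hρ (S.eq_one hg ρ fun i => ?_)
    by_contra hno
    push Not at hno
    obtain ⟨c, hc⟩ := hA1k ((S.st i).image ρ.symm) (card_image_le.trans (S.size i)) hno
    have hAc : A (Fin.castLE hN c) = A1 c := by
      symm
      have h1 : A1 c ⊆ A (Fin.castLE hN c) := by
        rw [← hG1]
        exact hGA _
      refine eq_of_subset_of_card_le h1 ?_
      rw [hAcard, hA1c]
    refine hcon (Fin.castLE hN c) (finSumFinEquiv i) ?_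
    rw [hAc, Equiv.symm_apply_apply, disjoint_left]
    intro x hx hx2
    rw [mem_image] at hx
    obtain ⟨y, hy, hyx⟩ := hx
    refine (disjoint_left.1 hc) hy ?_
    rw [mem_image]
    exact ⟨x, hx2, by rw [← hyx, Equiv.symm_apply_apply]⟩

end Vale.Agent.P181.H59
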