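import Vale.Agent.P181.H59.DesMain
import Vale.Agent.P181.H59.DesD

/-!
# P181, S6: the design for columns of length at least `C √b` with few columns
-/

set_option autoImplicit false

namespace Vale.Agent.P181.H59

open Finset Vale.Agent.P181.S6

/-- star system, certification columns of small degrees, design: natural numbers only. -/
lemma des_natD (hstr : H59.StrStmt) (hhit : Hit5Stmt) {b a m g n k N N1 P : ℕ} {θ : ℝ}
    (hg6 : 6 ≤ g) (hn1 : n * 2 ^ g + 3 ≤ b) (hn2 : b < (n + 1) * 2 ^ g + 3)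
    (h10 : 10 * 2 ^ g ≤ n) (hkn : k + (2 ^ g + 2) ≤ n) (hk : 0 < k) (hk2 : min (2 * m) a ≤ k * 2 ^ g)
    (hθ0 : 0 < θ) (hθ : θ ≤ (1 - (k : ℝ) / ((n : ℝ) - (2 ^ g + 2))) ^ (2 ^ g + 2))
    (hhit1 : 100 * g * 2 ^ g * Real.log (b + 1) ≤ N1 * (θ * Real.exp (-25)))
    (hP : 9 * N1 * (4 / 2 ^ g + ((k : ℝ) + 2) / n) + 2 * Real.log (b + 1) ≤ P)
    (hN : N1 ≤ N) (hnm : n + n ≤ m) (hab : a < b)
    (len : Fin N → ℕ) (hlen : ∀ c, m ≤ len c ∧ len c ≤ 2 * m ∧ len c ≤ a)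
    (hroom : b * (P + 2 * (N / 2 ^ g + 1) + 1) + (b - a) * (P + 2 * (N / 2 ^ g + 1)) <
      (b - a) * ((∑ c, len c) / b + 1)) :
    Design b (n + n) N len := by
  obtain ⟨S⟩ := hstr g n b (by omega) h10 hn1 hn2
  have hnb : n + n ≤ b := by
    have h1 : n * 2 ≤ n * 2 ^ g := Nat.mul_le_mul_left _ (by
      calc 2 = 2 ^ 1 := rfl
        _ ≤ 2 ^ g := Nat.pow_le_pow_right (by norm_num) (by omega))
    omega
  obtain ⟨A1, hA1⟩ := hhit b g n k N1 P θ S hg6 (by omega) hkn hnb hθ0 hθ hhit1 hP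
    (fun c => len (Fin.castLE hN c)) (fun c => by
      have h1 := hlen (Fin.castLE hN c)
      exact ⟨by omega, le_trans (le_min h1.2.1 h1.2.2) hk2⟩)
  exact design_ofD (e := b - a) S (by omega) hN len (by omega)
    (fun c => hnm.trans (hlen c).1) (fun c => by have := (hlen c).2.2; omega) A1 hA1 hroom

/-- `T` and `s` are not needed: the square of `h`. -/
lemma h_sq_le {b h m c C1 : ℝ} (hb : 0 < b) (hm : 0 < m) (hh : 0 ≤ h) (hc : 0 < c)
    (hC1 : 0 ≤ C1) (hg3 : m * h < 2 * (C1 * b)) (hbm : 56 * C1 ^ 2 / c * b ≤ m ^ 2) :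
    7 * h ^ 2 ≤ c / 2 * b := by
  have h1 : m ^ 2 * (7 * h ^ 2) ≤ m ^ 2 * (c / 2 * b) := by
    calc m ^ 2 * (7 * h ^ 2) = 7 * ((m * h) * (m * h)) := by ring
      _ ≤ 7 * ((2 * (C1 * b)) * (2 * (C1 * b))) := by gcongr
      _ = (56 * C1 ^ 2 / c * b) * (c / 2 * b) := by field_simp; ring
      _ ≤ m ^ 2 * (c / 2 * b) := by gcongr
  exact le_of_mul_le_mul_left h1 (by positivity)

/-- real inequalities for the number and the degrees of the certification columns. -/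
lemma big_numbers {E C3 C1 b m h lg L g k n N N1 P K : ℝ} {C : ℕ} (hb : 0 < b) (hm : 0 < m)
    (hmb : m ≤ b) (hE : 1 ≤ E) (hC3 : 0 < C3) (hC1 : 0 ≤ C1) (hh : 64 ≤ h)
    (hg1 : C1 * b ≤ m * h) (hC11 : 1 ≤ C1)
    (hg3 : m * h < 2 * (C1 * b)) (hlg : 1 ≤ lg) (hL : L ≤ 2 * lg) (hL0 : 0 ≤ L)
    (hgL : g * L ≤ 4 * lg ^ 2) (hN1 : N1 ≤ C3 * (g * L) * h + 1) (hN10 : 0 ≤ N1)
    (hk : k * (h + 2) ≤ (8 * C1 + 10) * n) (hk0 : 0 ≤ k) (hn : 10 * h ≤ n)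
    (hP : P ≤ 9 * N1 * (4 / h + (k + 2) / n) + 2 * L + 1)
    (hK : K = 9 * (8 * C1 + 16) * (4 * C3 + 1) + 8) (hlgK : 2 * (E + 1) * K < lg)
    (hlgC : 2 * C1 * (4 * C3 + 1) ≤ lg) (hC : 3 ≤ C) (hN : b / m * lg ^ C ≤ N) :
    b * ((E + 1) * (P + 3)) < N * m / 2 ∧ N1 ≤ N := by
  have hhpos : 0 < h := by linarith
  have hnpos : 0 < n := by linarith
  have hlg2 : 1 ≤ lg ^ 2 := one_le_pow₀ hlg
  have hlgpos : 0 < lg := by linarith
  have hN3 : b / m * lg ^ 3 ≤ N := by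
    refine le_trans ?_ hN
    have : 0 ≤ b / m := by positivity
    exact mul_le_mul_of_nonneg_left (pow_le_pow_right₀ hlg hC) this
  have hN1' : N1 ≤ (4 * C3 + 1) * lg ^ 2 * h := by
    calc N1 ≤ C3 * (g * L) * h + 1 := hN1
      _ ≤ C3 * (4 * lg ^ 2) * h + lg ^ 2 * h := by
          have h1 : C3 * (g * L) * h ≤ C3 * (4 * lg ^ 2) * h := by gcongr
          have h2 : 1 * 1 ≤ lg ^ 2 * h := by
            apply mul_le_mul hlg2 (by linarith) (by norm_num) (by positivity)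
          linarith
      _ = (4 * C3 + 1) * lg ^ 2 * h := by ring
  -- the degrees
  have hq : 4 / h + (k + 2) / n ≤ (8 * C1 + 16) / h := by
    have h1 : (k + 2) / n ≤ (8 * C1 + 12) / h := by
      rw [div_le_div_iff₀ hnpos hhpos]
      have h2 : k * h ≤ (8 * C1 + 10) * n := by
        refine le_trans ?_ hk
        have : 0 ≤ k * 2 := by positivity
        linarith [mul_add k h 2]
      have h3 : 2 * h ≤ 2 * n := by linarith
      calc (k + 2) * h = k * h + 2 * h := by ring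
        _ ≤ (8 * C1 + 10) * n + 2 * n := add_le_add h2 h3
        _ = (8 * C1 + 12) * n := by ring
    calc 4 / h + (k + 2) / n ≤ 4 / h + (8 * C1 + 12) / h := by linarith
      _ = (8 * C1 + 16) / h := by ring
  have hP3 : P + 3 ≤ K * lg ^ 2 := by
    have h1 : 9 * N1 * (4 / h + (k + 2) / n) ≤ 9 * (8 * C1 + 16) * (4 * C3 + 1) * lg ^ 2 := by
      calc 9 * N1 * (4 / h + (k + 2) / n)
          ≤ 9 * ((4 * C3 + 1) * lg ^ 2 * h) * ((8 * C1 + 16) / h) := by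
            have h0 : 0 ≤ 4 / h + (k + 2) / n := by positivity
            gcongr
        _ = 9 * (8 * C1 + 16) * (4 * C3 + 1) * lg ^ 2 := by
            field_simp
    have h2 : lg ≤ lg ^ 2 := by
      calc lg = lg ^ 1 := (pow_one lg).symm
        _ ≤ lg ^ 2 := pow_le_pow_right₀ hlg (by norm_num)
    rw [hK, add_mul]
    linarith
  have hKpos : 0 < K := by rw [hK]; positivity
  constructor
  · have h1 : b * ((E + 1) * (P + 3)) ≤ b * ((E + 1) * (K * lg ^ 2)) := by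
      have : 0 ≤ E + 1 := by linarith
      gcongr
    have h2 : (E + 1) * (K * lg ^ 2) < lg ^ 3 / 2 := by
      have h3 : (2 * (E + 1) * K) * lg ^ 2 < lg * lg ^ 2 :=
        mul_lt_mul_of_pos_right hlgK (by positivity)
      have h4 : lg * lg ^ 2 = lg ^ 3 := by ring
      have h5 : (E + 1) * (K * lg ^ 2) = (2 * (E + 1) * K) * lg ^ 2 / 2 := by ring
      rw [h5]
      linarith
    have h6 : b * (lg ^ 3 / 2) ≤ N * m / 2 := by
      have h7 : b * lg ^ 3 ≤ N * m := by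
        calc b * lg ^ 3 = (b / m * lg ^ 3) * m := by field_simp
          _ ≤ N * m := by gcongr
      linarith
    calc b * ((E + 1) * (P + 3)) ≤ b * ((E + 1) * (K * lg ^ 2)) := h1
      _ < b * (lg ^ 3 / 2) := by gcongr
      _ ≤ N * m / 2 := h6
  · have h1 : h ≤ 2 * C1 * (b / m) := by
      have h2 : h * m ≤ 2 * C1 * b := by linarith [mul_comm m h]
      rw [← mul_div_assoc, le_div_iff₀ hm]
      exact h2
    calc N1 ≤ (4 * C3 + 1) * lg ^ 2 * h := hN1'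
      _ ≤ (4 * C3 + 1) * lg ^ 2 * (2 * C1 * (b / m)) := by gcongr
      _ = (2 * C1 * (4 * C3 + 1)) * (b / m * lg ^ 2) := by ring
      _ ≤ lg * (b / m * lg ^ 2) := by gcongr
      _ = b / m * lg ^ 3 := by ring
      _ ≤ N := hN3

/-- logarithms. -/
lemma log_bounds' {b g : ℕ} (hb : 2 ≤ b) (hg : 2 ^ g ≤ b) :
    0 ≤ Real.log ((b : ℝ) + 1) ∧ Real.log ((b : ℝ) + 1) ≤ 2 * Real.log b ∧
      (g : ℝ) * Real.log (b + 1) ≤ 4 * Real.log b ^ 2 := by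
  have hb2 : (2 : ℝ) ≤ b := by exact_mod_cast hb
  have hb0 : (0 : ℝ) < b := by linarith
  have hlb0 : 0 ≤ Real.log b := Real.log_nonneg (by linarith)
  have hlog1 : Real.log (b + 1) ≤ 2 * Real.log b := by
    have h1 : (b : ℝ) + 1 ≤ b ^ 2 := by
      have h3 := mul_le_mul_of_nonneg_right hb2 hb0.le
      rw [sq]
      linarith
    calc Real.log (b + 1) ≤ Real.log (b ^ 2) := Real.log_le_log (by linarith) h1
      _ = 2 * Real.log b := by rw [Real.log_pow]; norm_num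
  have hglog : (g : ℝ) ≤ 2 * Real.log b := by
    have h0 : ((2 : ℝ) ^ g) ≤ b := by exact_mod_cast hg
    have h2 : Real.log ((2 : ℝ) ^ g) ≤ Real.log b := Real.log_le_log (by positivity) h0
    rw [Real.log_pow] at h2
    have h4 : (1 : ℝ) / 2 ≤ Real.log 2 := by
      have := Real.log_two_gt_d9
      linarith
    have h5 : (g : ℝ) * (1 / 2) ≤ g * Real.log 2 := by gcongr
    linarith
  have h0 : 0 ≤ Real.log ((b : ℝ) + 1) := Real.log_nonneg (by linarith)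
  refine ⟨h0, hlog1, ?_⟩
  calc (g : ℝ) * Real.log (b + 1) ≤ (2 * Real.log b) * (2 * Real.log b) := by gcongr
    _ = 4 * Real.log b ^ 2 := by ring

/-- the core of the numbers: all constants fixed. -/
lemma big_core (hstr : H59.StrStmt) (hhit : Hit5Stmt) {δ : ℝ}
    (hδ : 0 < δ) {c E C3 K : ℝ} {C1 C : ℕ} (hc : c = δ / (2 * (1 + δ))) (hE : E = (1 + δ) / δ)
    (hC1 : 4 * (E + 1) + 64 ≤ C1)
    (hC3 : C3 = 100 * Real.exp 25 / Real.exp (-((8 * C1 + 10) / c)))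
    (hK : K = 9 * (8 * C1 + 16) * (4 * C3 + 1) + 8) (hC : 3 ≤ C)
    (hCc : 56 * (C1 : ℝ) ^ 2 / c ≤ C) {b a m N : ℕ}
    (hb2 : 2 ≤ b) (hab : (1 + δ) * a ≤ b) (hbm : C * b ≤ m ^ 2) (hma : m ≤ a)
    (hlg1 : 1 ≤ Real.log b) (hlgK : 2 * (E + 1) * K < Real.log b)
    (hlgC : 2 * C1 * (4 * C3 + 1) ≤ Real.log b) (hN : ((b : ℝ) / m) * Real.log b ^ C ≤ N)
    (len : Fin N → ℕ) (hlen : ∀ c, m ≤ len c ∧ len c ≤ 2 * m ∧ len c ≤ a) :
    ∃ R : ℕ, R ≤ m ∧ Design b R N len := by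
  have hb0 : (0 : ℝ) < b := by exact_mod_cast (show 0 < b by omega)
  have hδ1 : 0 < 1 + δ := by linarith
  have hc0 : 0 < c := by rw [hc]; positivity
  have hc12 : c ≤ 1 / 2 := by
    rw [hc, div_le_div_iff₀ (by positivity) (by norm_num)]
    linarith
  have hE1 : 1 ≤ E := by
    rw [hE, le_div_iff₀ hδ]
    linarith
  have hC1pos : (64 : ℝ) ≤ C1 := by linarith
  have hC1n : 64 ≤ C1 := by exact_mod_cast hC1pos
  have hC3pos : 0 < C3 := by rw [hC3]; positivity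
  have hmpos : 0 < m := by
    rcases Nat.eq_zero_or_pos m with h | h
    · subst h
      have : 0 < C * b := Nat.mul_pos (by omega) (by omega)
      simp at hbm
      omega
    · exact h
  have hm0 : (0 : ℝ) < m := by exact_mod_cast hmpos
  have hma' : (m : ℝ) ≤ a := by exact_mod_cast hma
  have hab2 : (a : ℝ) ≤ (1 - 2 * c) * b := by
    have h1 : 1 - 2 * c = 1 / (1 + δ) := by
      rw [hc]
      field_simp
      ring
    rw [h1, one_div, ← div_eq_inv_mul, le_div_iff₀ hδ1]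
    linarith
  have hcb0 : (0 : ℝ) < 2 * c * b := by positivity
  have hab3 : (a : ℝ) < b := by linarith
  have hab4 : a < b := by exact_mod_cast hab3
  -- the choice of g
  obtain ⟨g, hg6, hg1, hg3, hhC⟩ := exists_g hmpos (lt_of_le_of_lt hma hab4) hC1n
  have hg1R : (C1 : ℝ) * b ≤ m * ((2 ^ g : ℕ) : ℝ) := by exact_mod_cast hg1
  have hg3R : (m : ℝ) * ((2 ^ g : ℕ) : ℝ) < 2 * (C1 * b) := by exact_mod_cast hg3
  have hh64 : 64 ≤ 2 ^ g := le_trans hC1n hhC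
  have hhR : (64 : ℝ) ≤ ((2 ^ g : ℕ) : ℝ) := by exact_mod_cast hh64
  have hhpos : (0 : ℝ) < ((2 ^ g : ℕ) : ℝ) := by linarith
  have hbmR : 56 * (C1 : ℝ) ^ 2 / c * b ≤ (m : ℝ) ^ 2 := by
    calc 56 * (C1 : ℝ) ^ 2 / c * b ≤ C * b := by gcongr
      _ ≤ (m : ℝ) ^ 2 := by exact_mod_cast hbm
  have hh2 := h_sq_le hb0 hm0 hhpos.le hc0 (by linarith : (0 : ℝ) ≤ C1) hg3R hbmR
  have hhb : (2 ^ g : ℕ) ≤ b ∧ 12 * ((2 ^ g : ℕ) : ℝ) ^ 2 ≤ b := by
    have hsq : 64 * ((2 ^ g : ℕ) : ℝ) ≤ ((2 ^ g : ℕ) : ℝ) ^ 2 := by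
      rw [sq]
      exact mul_le_mul_of_nonneg_right hhR hhpos.le
    have hcb : c / 2 * b ≤ (b : ℝ) / 4 := by
      have := mul_le_mul_of_nonneg_right (show c / 2 ≤ 1 / 4 by linarith) hb0.le
      linarith
    constructor
    · have : ((2 ^ g : ℕ) : ℝ) ≤ b := by linarith
      exact_mod_cast this
    · linarith
  -- the number of stars
  obtain ⟨n, hn1, hn2⟩ : ∃ n : ℕ, n * 2 ^ g + 3 ≤ b ∧ b < (n + 1) * 2 ^ g + 3 := by
    refine ⟨(b - 3) / 2 ^ g, ?_, ?_⟩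
    · have h1 := Nat.div_mul_le_self (b - 3) (2 ^ g)
      omega
    · have h1 := Nat.lt_div_mul_add (a := b - 3) (b := 2 ^ g) (by omega)
      have h2 : ((b - 3) / 2 ^ g + 1) * 2 ^ g = (b - 3) / 2 ^ g * 2 ^ g + 2 ^ g := by ring
      omega
  have hn2R : (b : ℝ) < (n + 1) * ((2 ^ g : ℕ) : ℝ) + 3 := by exact_mod_cast hn2
  -- the filler
  obtain ⟨k, hk0, hk1, hk2⟩ : ∃ k : ℕ, 0 < k ∧ k * 2 ^ g ≤ min (2 * m) a + 2 ^ g ∧
      min (2 * m) a ≤ k * 2 ^ g := by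
    refine ⟨min (2 * m) a / 2 ^ g + 1, Nat.succ_pos _, ?_, ?_⟩
    · rw [add_mul, one_mul]
      exact Nat.add_le_add_right (Nat.div_mul_le_self _ _) _
    · have h1 := Nat.lt_div_mul_add (a := min (2 * m) a) (b := 2 ^ g) (by omega)
      rw [add_mul, one_mul]
      omega
  have hk1R : (k : ℝ) * ((2 ^ g : ℕ) : ℝ) ≤ (min (2 * m) a : ℕ) + ((2 ^ g : ℕ) : ℝ) := by
    exact_mod_cast hk1
  have hl1 : ((min (2 * m) a : ℕ) : ℝ) ≤ 2 * m := by
    have : min (2 * m) a ≤ 2 * m := min_le_left _ _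
    exact_mod_cast this
  have hl2 : ((min (2 * m) a : ℕ) : ℝ) ≤ a := by
    have : min (2 * m) a ≤ a := min_le_right _ _
    exact_mod_cast this
  obtain ⟨hXpos, hx0, hx1, hx2⟩ := x_bounds hb0 hc0 hc12 (by linarith) hhR hh2
    (Nat.cast_nonneg k) hab2 hma' hg3R hn2R hk1R hl1 hl2
  have hkn : k + (2 ^ g + 2) ≤ n := by
    have h1 : (k : ℝ) < n - (((2 ^ g : ℕ) : ℝ) + 2) := by
      have h2 : (k : ℝ) / (n - (((2 ^ g : ℕ) : ℝ) + 2)) < 1 := by linarith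
      rw [div_lt_one hXpos] at h2
      exact h2
    have h2 : (k : ℝ) + (((2 ^ g : ℕ) : ℝ) + 2) < n := by linarith
    have h3 : k + (2 ^ g + 2) < n := by exact_mod_cast h2
    exact h3.le
  have hθ1 : Real.exp (-((8 * C1 + 10) / c)) ≤
      (1 - (k : ℝ) / ((n : ℝ) - (((2 ^ g : ℕ) : ℝ) + 2))) ^ (2 ^ g + 2) :=
    theta_ge hc0 hx0 hx1 (by push_cast at hx2 ⊢; exact hx2)
  have hθpos := lt_of_lt_of_le (Real.exp_pos _) hθ1
  have hkh : (k : ℝ) * (((2 ^ g : ℕ) : ℝ) + 2) ≤ (8 * C1 + 10) * n := by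
    rw [div_mul_eq_mul_div, div_le_iff₀ hXpos] at hx2
    refine hx2.trans ?_
    apply mul_le_mul_of_nonneg_left _ (by linarith)
    linarith
  -- the number of certification columns
  obtain ⟨hlogb, hlogb2, hgL⟩ := log_bounds' hb2 hhb.1
  obtain ⟨N1, hN1ge, hN1le⟩ : ∃ N1 : ℕ,
      C3 * (g * Real.log (b + 1)) * ((2 ^ g : ℕ) : ℝ) ≤ N1 ∧
      (N1 : ℝ) ≤ C3 * (g * Real.log (b + 1)) * ((2 ^ g : ℕ) : ℝ) + 1 :=
    ⟨_, Nat.le_ceil _, (Nat.ceil_lt_add_one (by positivity)).le⟩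
  have hhit1 := n1_large hC3 hθ1 hN1ge
  obtain ⟨P, hPge, hPle⟩ : ∃ P : ℕ,
      9 * N1 * (4 / ((2 ^ g : ℕ) : ℝ) + ((k : ℝ) + 2) / n) + 2 * Real.log (b + 1) ≤ P ∧
      (P : ℝ) ≤ 9 * N1 * (4 / ((2 ^ g : ℕ) : ℝ) + ((k : ℝ) + 2) / n) +
        2 * Real.log (b + 1) + 1 :=
    ⟨_, Nat.le_ceil _, (Nat.ceil_lt_add_one (by positivity)).le⟩
  have h10 : 10 * 2 ^ g ≤ n := by
    have h1 : (10 : ℝ) * ((2 ^ g : ℕ) : ℝ) * ((2 ^ g : ℕ) : ℝ) ≤ n * ((2 ^ g : ℕ) : ℝ) := by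
      have e1 : (10 : ℝ) * ((2 ^ g : ℕ) : ℝ) * ((2 ^ g : ℕ) : ℝ) =
        10 * ((2 ^ g : ℕ) : ℝ) ^ 2 := by ring
      have e2 : ((n : ℝ) + 1) * ((2 ^ g : ℕ) : ℝ) = n * ((2 ^ g : ℕ) : ℝ) + ((2 ^ g : ℕ) : ℝ) := by
        ring
      have hsq : 64 * ((2 ^ g : ℕ) : ℝ) ≤ ((2 ^ g : ℕ) : ℝ) ^ 2 := by
        rw [sq]
        exact mul_le_mul_of_nonneg_right hhR hhpos.le
      rw [e1]
      have := hhb.2
      linarith
    have h2 := le_of_mul_le_mul_right h1 hhpos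
    exact_mod_cast h2
  have h10R : 10 * ((2 ^ g : ℕ) : ℝ) ≤ n := by exact_mod_cast h10
  obtain ⟨hkey, hN1N⟩ := big_numbers hb0 hm0 (by linarith : (m : ℝ) ≤ b) hE1 hC3pos
    (by linarith : (0 : ℝ) ≤ C1) hhR hg1R (by linarith) hg3R hlg1 hlogb2 hlogb hgL hN1le
    (Nat.cast_nonneg N1) hkh (Nat.cast_nonneg k) h10R hPle hK hlgK hlgC hC hN
  have hN1N' : N1 ≤ N := by exact_mod_cast hN1N
  have hnm : n + n ≤ m := by
    have h1 : (n + n) * 2 ^ g ≤ m * 2 ^ g := by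
      calc (n + n) * 2 ^ g = 2 * (n * 2 ^ g) := by ring
        _ ≤ 2 * b := by omega
        _ ≤ C1 * b := Nat.mul_le_mul_right _ (by omega)
        _ ≤ m * 2 ^ g := hg1
    exact Nat.le_of_mul_le_mul_right h1 (by omega)
  have hcast : ((2 ^ g : ℕ) : ℝ) = 2 ^ g := by push_cast; rfl
  rw [hcast] at hθpos hhit1 hPge
  refine ⟨n + n, hnm, des_natD (θ := (1 - (k : ℝ) / ((n : ℝ) - (2 ^ g + 2))) ^ (2 ^ g + 2))
    hstr hhit hg6 hn1 hn2 h10 hkn hk0 hk2 hθpos le_rfl hhit1 hPge hN1N' hnm hab4 len hlen ?_⟩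
  -- the room
  have hsumlen : N * m ≤ ∑ c, len c := by
    calc N * m = ∑ _c : Fin N, m := by simp
      _ ≤ ∑ c, len c := sum_le_sum fun c _ => (hlen c).1
  generalize (∑ c, len c) = sl at hsumlen ⊢
  have hdiv : (sl : ℝ) ≤ b * (((sl / b : ℕ) : ℝ) + 1) := by
    have h1 := Nat.lt_div_mul_add (a := sl) (b := b) (by omega)
    have h2 : sl ≤ b * (sl / b + 1) := by
      rw [mul_add, mul_one, mul_comm b]
      exact h1.le
    exact_mod_cast h2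
  have hNh : (((N / 2 ^ g : ℕ) : ℝ)) ≤ N / ((2 ^ g : ℕ) : ℝ) := Nat.cast_div_le
  have heR : ((b - a : ℕ) : ℝ) = (b : ℝ) - a := by
    rw [Nat.cast_sub hab4.le]
  have hEe : (b : ℝ) ≤ E * ((b : ℝ) - a) := by
    rw [hE, div_mul_eq_mul_div, le_div_iff₀ hδ]
    have e1 : (1 + δ) * ((b : ℝ) - a) = b * δ + (b - (1 + δ) * a) := by ring
    rw [e1]
    linarith
  have hgoal := room (K := ((sl / b : ℕ) : ℝ) + 1)
    (P := (P : ℝ) + 2 * (((N / 2 ^ g : ℕ) : ℝ) + 1)) hb0 hhpos (by linarith) (Nat.cast_nonneg N)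
    (show (0 : ℝ) < (b : ℝ) - a by linarith) hEe (by linarith) hg1R (by positivity)
    (by linarith) hkey (by
      have h9 : (N : ℝ) * m ≤ sl := by exact_mod_cast hsumlen
      linarith)
  have hgoal2 : ((b * (P + 2 * (N / 2 ^ g + 1) + 1) + (b - a) * (P + 2 * (N / 2 ^ g + 1)) : ℕ) : ℝ)
      < (((b - a) * (sl / b + 1) : ℕ) : ℝ) := by
    push_cast [heR] at hgoal ⊢
    exact hgoal
  exact_mod_cast hgoal2

/-- **[S6-BIG]** -/
theorem des_big (hstr : H59.StrStmt) (hhit : Hit5Stmt) : DesBig := by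
  intro δ hδ
  set E : ℝ := (1 + δ) / δ with hE
  set c : ℝ := δ / (2 * (1 + δ)) with hc
  set C1 : ℕ := ⌈4 * (E + 1) + 64⌉₊ with hC1
  set C3 : ℝ := 100 * Real.exp 25 / Real.exp (-((8 * (C1 : ℝ) + 10) / c)) with hC3
  set K : ℝ := 9 * (8 * C1 + 16) * (4 * C3 + 1) + 8 with hK
  have htend : Filter.Tendsto (fun b : ℕ => Real.log b) Filter.atTop Filter.atTop :=
    Real.tendsto_log_atTop.comp tendsto_natCast_atTop_atTop
  have hev := ((htend.eventually_ge_atTop 1).and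
    ((htend.eventually_gt_atTop (2 * (E + 1) * K)).and
    ((htend.eventually_ge_atTop (2 * C1 * (4 * C3 + 1))).and (Filter.eventually_ge_atTop 2))))
  obtain ⟨b0, hb0⟩ := Filter.eventually_atTop.1 hev
  refine ⟨max 3 ⌈56 * (C1 : ℝ) ^ 2 / c⌉₊, b0, fun b a m N hb hab hbm hma hN len hlen => ?_⟩
  obtain ⟨h1, h2, h3, h4⟩ := hb0 b hb
  exact big_core hstr hhit hδ hc hE (Nat.le_ceil _) hC3 hK (le_max_left _ _)
    ((Nat.le_ceil _).trans (by exact_mod_cast le_max_right _ _)) h4 hab hbm hma h1 h2 h3 hN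
    len hlen

end Vale.Agent.P181.H59
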