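import Vale.Agent.P181.H59.DesNum

/-!
# P181, S5: the numbers of the design, real inequalities
-/

set_option autoImplicit false

namespace Vale.Agent.P181.H59

open Finset

lemma exists_g {m b C1 : ℕ} (hm : 0 < m) (hmb : m < b) (hC : 64 ≤ C1) :
    ∃ g : ℕ, 6 ≤ g ∧ C1 * b ≤ m * 2 ^ g ∧ m * 2 ^ g < 2 * (C1 * b) ∧ C1 ≤ 2 ^ g := by
  classical
  have hex : ∃ g : ℕ, C1 * b ≤ m * 2 ^ g := by
    refine ⟨C1 * b, ?_⟩
    calc C1 * b ≤ 2 ^ (C1 * b) := Nat.lt_two_pow_self.le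
      _ = 1 * 2 ^ (C1 * b) := (one_mul _).symm
      _ ≤ m * 2 ^ (C1 * b) := Nat.mul_le_mul_right _ hm
  obtain ⟨g, hg1, hg2⟩ : ∃ g, C1 * b ≤ m * 2 ^ g ∧ ∀ g' < g, ¬ C1 * b ≤ m * 2 ^ g' :=
    ⟨Nat.find hex, Nat.find_spec hex, fun g' h => Nat.find_min hex h⟩
  have hgpos : 0 < g := by
    rcases Nat.eq_zero_or_pos g with h | h
    · exfalso
      subst h
      rw [pow_zero, mul_one] at hg1
      have h1 : 64 * b ≤ C1 * b := Nat.mul_le_mul_right _ hC
      omega
    · exact h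
  have hg3 : m * 2 ^ g < 2 * (C1 * b) := by
    have h1 := hg2 (g - 1) (by omega)
    rw [not_le] at h1
    have h2 : 2 ^ g = 2 ^ (g - 1) * 2 := by
      rw [← pow_succ]
      congr 1
      omega
    rw [h2]
    calc m * (2 ^ (g - 1) * 2) = 2 * (m * 2 ^ (g - 1)) := by ring
      _ < 2 * (C1 * b) := by omega
  have hhC : C1 ≤ 2 ^ g := by
    by_contra hcon
    rw [not_le] at hcon
    have h2 : m * 2 ^ g < b * C1 := by
      calc m * 2 ^ g ≤ m * C1 := Nat.mul_le_mul_left _ hcon.le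
        _ < b * C1 := Nat.mul_lt_mul_of_pos_right hmb (by omega)
    rw [mul_comm C1 b] at hg1
    omega
  refine ⟨g, ?_, hg1, hg3, hhC⟩
  by_contra hcon
  have h1 : g ≤ 5 := by omega
  have h2 : 2 ^ g ≤ 2 ^ 5 := Nat.pow_le_pow_right (by norm_num) h1
  omega

lemma h_bounds {b h m s T c C1 : ℝ} (hs : 0 < s) (hss : s * s = b) (hT : 1 ≤ T) (hc : 0 < c)
    (hh : 0 ≤ h) (hC1 : 0 ≤ C1) (hmb : s * T ^ 2 ≤ m) (hg3 : m * h < 2 * (C1 * b))
    (hT2 : 56 * C1 ^ 2 / c ≤ T) :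
    T ^ 2 * h ≤ 2 * C1 * s ∧ 7 * h ^ 2 ≤ c / 2 * b := by
  have hTh : T ^ 2 * h ≤ 2 * C1 * s := by
    have h1 : s * (T ^ 2 * h) ≤ s * (2 * C1 * s) := by
      calc s * (T ^ 2 * h) = (s * T ^ 2) * h := by ring
        _ ≤ m * h := by gcongr
        _ ≤ 2 * (C1 * b) := hg3.le
        _ = s * (2 * C1 * s) := by rw [← hss]; ring
    exact le_of_mul_le_mul_left h1 hs
  refine ⟨hTh, ?_⟩
  have h1 : T ^ 4 * h ^ 2 ≤ 4 * C1 ^ 2 * b := by
    calc T ^ 4 * h ^ 2 = (T ^ 2 * h) * (T ^ 2 * h) := by ring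
      _ ≤ (2 * C1 * s) * (2 * C1 * s) := by gcongr
      _ = 4 * C1 ^ 2 * b := by rw [← hss]; ring
  have hb : 0 ≤ b := by rw [← hss]; positivity
  have h2 : 56 * C1 ^ 2 ≤ c * T ^ 4 := by
    rw [div_le_iff₀ hc] at hT2
    have h3 : T ≤ T ^ 4 := by
      calc T = T ^ 1 := (pow_one T).symm
        _ ≤ T ^ 4 := pow_le_pow_right₀ hT (by norm_num)
    calc 56 * C1 ^ 2 ≤ T * c := hT2
      _ ≤ T ^ 4 * c := by gcongr
      _ = c * T ^ 4 := by ring
  have h4 : 0 < T ^ 4 := by positivity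
  have h5 : T ^ 4 * (7 * h ^ 2) ≤ T ^ 4 * (c / 2 * b) := by
    calc T ^ 4 * (7 * h ^ 2) = 7 * (T ^ 4 * h ^ 2) := by ring
      _ ≤ 7 * (4 * C1 ^ 2 * b) := by gcongr
      _ = (56 * C1 ^ 2) * (b / 2) := by ring
      _ ≤ (c * T ^ 4) * (b / 2) := by gcongr
      _ = T ^ 4 * (c / 2 * b) := by ring
  exact le_of_mul_le_mul_left h5 h4

lemma x_bounds {b h m a n k l c C1 : ℝ} (hb : 0 < b) (hc : 0 < c) (hc2 : c ≤ 1 / 2)
    (hC1 : 0 ≤ C1) (hh : 64 ≤ h) (hh2 : 7 * h ^ 2 ≤ c / 2 * b) (hk0 : 0 ≤ k)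
    (ha : a ≤ (1 - 2 * c) * b) (hma : m ≤ a) (hg3 : m * h < 2 * (C1 * b))
    (hn : b < (n + 1) * h + 3) (hk : k * h ≤ l + h) (hl1 : l ≤ 2 * m) (hl2 : l ≤ a) :
    0 < n - (h + 2) ∧ 0 ≤ k / (n - (h + 2)) ∧ k / (n - (h + 2)) ≤ 1 - c ∧
      k / (n - (h + 2)) * (h + 2) ≤ 8 * C1 + 10 := by
  have hhpos : 0 < h := by linarith
  have hsq : 64 * h ≤ h ^ 2 := by
    rw [sq]
    exact mul_le_mul_of_nonneg_right hh hhpos.le
  have hcb : c / 2 * b ≤ b / 4 := by
    have := mul_le_mul_of_nonneg_right (show c / 2 ≤ 1 / 4 by linarith) hb.le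
    linarith
  set X : ℝ := n - (h + 2) with hX
  have hXh : (1 - c / 2) * b ≤ X * h := by
    have e1 : X * h = n * h - h ^ 2 - 2 * h := by rw [hX]; ring
    have e2 : (n + 1) * h = n * h + h := by ring
    rw [e1]
    linarith
  have hXpos : 0 < X := by
    by_contra hcon
    rw [not_lt] at hcon
    have h1 : X * h ≤ 0 := mul_nonpos_of_nonpos_of_nonneg hcon hhpos.le
    have h2 : 0 < (1 - c / 2) * b := mul_pos (by linarith) hb
    linarith
  refine ⟨hXpos, by positivity, ?_, ?_⟩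
  · rw [div_le_iff₀ hXpos]
    have h1 : k * h ≤ ((1 - c) * X) * h := by
      calc k * h ≤ a + h := by linarith
        _ ≤ (1 - 2 * c) * b + c / 2 * b := by linarith
        _ ≤ (1 - c) * ((1 - c / 2) * b) := by
            have e1 : (1 - c) * ((1 - c / 2) * b) =
                (1 - 2 * c) * b + c / 2 * b + c * c / 2 * b := by ring
            have e2 : 0 ≤ c * c / 2 * b := by positivity
            rw [e1]
            linarith
        _ ≤ (1 - c) * (X * h) := by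
            apply mul_le_mul_of_nonneg_left hXh
            linarith
        _ = ((1 - c) * X) * h := by ring
    exact le_of_mul_le_mul_right h1 hhpos
  · rw [div_mul_eq_mul_div, div_le_iff₀ hXpos]
    have h1 : (k * (h + 2)) * h ≤ ((8 * C1 + 10) * X) * h := by
      calc (k * (h + 2)) * h = (k * h) * (h + 2) := by ring
        _ ≤ (2 * m + h) * (h + 2) := by
            apply mul_le_mul_of_nonneg_right _ (by linarith)
            linarith
        _ = 2 * (m * h) + 4 * m + (h ^ 2 + 2 * h) := by ring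
        _ ≤ 2 * (2 * (C1 * b)) + 4 * b + b := by
            have e1 : 0 ≤ 2 * c * b := by positivity
            have h2 : m ≤ b := by linarith
            have h3 : h ^ 2 + 2 * h ≤ b := by linarith
            linarith
        _ = (8 * C1 + 10) * (1 / 2 * b) := by ring
        _ ≤ (8 * C1 + 10) * ((1 - c / 2) * b) := by
            gcongr
            linarith
        _ ≤ (8 * C1 + 10) * (X * h) := by gcongr
        _ = ((8 * C1 + 10) * X) * h := by ring
    exact le_of_mul_le_mul_right h1 hhpos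

lemma log_bounds {ε : ℝ} (hε : 0 < ε) {b g : ℕ} (hb : 2 ≤ b) (hg : 2 ^ g ≤ b) {T : ℝ}
    (hT : T = (b : ℝ) ^ (ε / 2)) :
    (g : ℝ) * Real.log (b + 1) ≤ 64 * T / ε ^ 2 := by
  have hb2 : (2 : ℝ) ≤ b := by exact_mod_cast hb
  have hb0 : (0 : ℝ) < b := by linarith
  have hlb0 : 0 ≤ Real.log b := Real.log_nonneg (by linarith)
  have hlogs : Real.log b ≤ 4 / ε * (b : ℝ) ^ (ε / 4) := by
    have h1 := Real.log_le_rpow_div hb0.le (show 0 < ε / 4 by linarith)
    calc Real.log b ≤ (b : ℝ) ^ (ε / 4) / (ε / 4) := h1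
      _ = 4 / ε * (b : ℝ) ^ (ε / 4) := by field_simp
  have hTq : (b : ℝ) ^ (ε / 4) * (b : ℝ) ^ (ε / 4) = T := by
    rw [hT, ← Real.rpow_add hb0]
    congr 1
    ring
  have hlog1 : Real.log (b + 1) ≤ 2 * Real.log b := by
    have h1 : (b : ℝ) + 1 ≤ b ^ 2 := by
      have h3 := mul_le_mul_of_nonneg_right hb2 hb0.le
      rw [sq]
      linarith
    calc Real.log (b + 1) ≤ Real.log (b ^ 2) := Real.log_le_log (by linarith) h1
      _ = 2 * Real.log b := by rw [Real.log_pow]; norm_num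
  have hglog : (g : ℝ) ≤ 2 * Real.log b := by
    have h0 : ((2 : ℝ) ^ g) ≤ b := by exact_mod_cast hg
    have h2 : Real.log ((2 : ℝ) ^ g) ≤ Real.log b := Real.log_le_log (by positivity) h0
    rw [Real.log_pow] at h2
    have h4 : (1 : ℝ) / 2 ≤ Real.log 2 := by
      have := Real.log_two_gt_d9
      linarith
    have h5 : (g : ℝ) * (1 / 2) ≤ g * Real.log 2 := by gcongr
    linarith
  calc (g : ℝ) * Real.log (b + 1) ≤ (2 * Real.log b) * (2 * Real.log b) := by
        have : 0 ≤ Real.log ((b : ℝ) + 1) := Real.log_nonneg (by linarith)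
        gcongr
    _ ≤ (2 * (4 / ε * (b : ℝ) ^ (ε / 4))) * (2 * (4 / ε * (b : ℝ) ^ (ε / 4))) := by gcongr
    _ = 64 / ε ^ 2 * ((b : ℝ) ^ (ε / 4) * (b : ℝ) ^ (ε / 4)) := by ring
    _ = 64 * T / ε ^ 2 := by rw [hTq]; ring

lemma n_bounds {b h m s T C1 E N N1 : ℝ} (hs : 0 < s) (hss : s * s = b) (hT : 2 ≤ T)
    (hTs : T ^ 2 ≤ s) (hh : 0 < h) (hC1 : 0 ≤ C1) (hE : 0 ≤ E) (hN1 : 0 ≤ N1)
    (hTh : T ^ 2 * h ≤ 2 * C1 * s) (hNge : b / T ^ 2 - 1 < N) (hg1 : C1 * b ≤ m * h)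
    (hmb : m ≤ b) (hsmall : (E + 1) * (N1 + 3) < s / 8) :
    b * ((E + 1) * (N1 + 3)) < N * m / 2 ∧ N1 ≤ N := by
  have hb : 0 < b := by rw [← hss]; positivity
  have hT0 : 0 < T := by linarith
  have hN2 : b / (2 * T ^ 2) ≤ N := by
    have h1 : 2 * T ^ 2 ≤ b := by
      calc 2 * T ^ 2 ≤ T ^ 2 * T ^ 2 := by
            have : 2 ≤ T ^ 2 := by
              calc (2 : ℝ) ≤ T := hT
                _ = T ^ 1 := (pow_one T).symm
                _ ≤ T ^ 2 := pow_le_pow_right₀ (by linarith) (by norm_num)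
            gcongr
        _ ≤ s * s := by gcongr
        _ = b := hss
    have h2 : b / (2 * T ^ 2) ≤ b / T ^ 2 - 1 := by
      have h3 : b / T ^ 2 = b / (2 * T ^ 2) + b / (2 * T ^ 2) := by
        field_simp
        ring
      have h4 : 1 ≤ b / (2 * T ^ 2) := by
        rw [le_div_iff₀ (by positivity)]
        linarith
      linarith
    linarith
  have hN0 : 0 ≤ N := le_trans (by positivity) hN2
  have hNs : s / 8 * (2 * h) ≤ N * C1 := by
    have h1 : s / 8 * (2 * h) * (2 * T ^ 2) ≤ b * C1 := by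
      calc s / 8 * (2 * h) * (2 * T ^ 2) = s / 2 * (T ^ 2 * h) := by ring
        _ ≤ s / 2 * (2 * C1 * s) := by gcongr
        _ = b * C1 := by rw [← hss]; ring
    calc s / 8 * (2 * h) ≤ b * C1 / (2 * T ^ 2) := by
          rw [le_div_iff₀ (by positivity)]
          exact h1
      _ = b / (2 * T ^ 2) * C1 := by ring
      _ ≤ N * C1 := by gcongr
  have hkey1 : b * ((E + 1) * (N1 + 3)) < N * m / 2 := by
    have h1 : b * ((E + 1) * (N1 + 3)) * (2 * h) < N * m / 2 * (2 * h) := by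
      calc b * ((E + 1) * (N1 + 3)) * (2 * h) < b * (s / 8) * (2 * h) := by
            gcongr
        _ = b * (s / 8 * (2 * h)) := by ring
        _ ≤ b * (N * C1) := by gcongr
        _ = N * (C1 * b) := by ring
        _ ≤ N * (m * h) := by gcongr
        _ = N * m / 2 * (2 * h) := by ring
    exact lt_of_mul_lt_mul_right h1 (by positivity)
  refine ⟨hkey1, ?_⟩
  have h1 : b * N1 ≤ b * N := by
    calc b * N1 ≤ b * ((E + 1) * (N1 + 3)) := by
          have h2 : N1 ≤ (E + 1) * (N1 + 3) := by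
            have h4 : 1 * (N1 + 3) ≤ (E + 1) * (N1 + 3) := by
              apply mul_le_mul_of_nonneg_right _ (by linarith)
              linarith
            linarith
          gcongr
      _ ≤ N * m / 2 := hkey1.le
      _ ≤ b * N := by
          have h6 : N * m ≤ N * b := mul_le_mul_of_nonneg_left hmb hN0
          have h7 : 0 ≤ N * b := by positivity
          linarith
  exact le_of_mul_le_mul_left h1 hb

lemma room {b e h m E C1 N N1 P K : ℝ} (hb : 0 < b) (hh : 0 < h) (hE : 0 ≤ E) (hN : 0 ≤ N)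
    (he : 0 < e) (hEe : b ≤ E * e) (hC1 : 4 * (E + 1) ≤ C1) (hg1 : C1 * b ≤ m * h)
    (hP0 : 0 ≤ P) (hP : P + 1 ≤ N1 + 3 + 2 * (N / h))
    (hkey : b * ((E + 1) * (N1 + 3)) < N * m / 2) (hK : N * m ≤ b * K) :
    b * (P + 1) + e * P < e * K := by
  have h1 : b * (P + 1) + e * P ≤ e * ((E + 1) * (P + 1)) := by
    have h2 : b * (P + 1) ≤ E * e * (P + 1) := by gcongr
    have e1 : e * ((E + 1) * (P + 1)) = E * e * (P + 1) + e * P + e := by ring
    rw [e1]
    linarith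
  have h3 : b * ((E + 1) * (P + 1)) < N * m := by
    have h5 : b * ((E + 1) * (2 * (N / h))) ≤ N * m / 2 := by
      have h6 : b * ((E + 1) * (2 * (N / h))) = N * (2 * (E + 1) * b) / h := by ring
      rw [h6, div_le_iff₀ hh]
      have h7 : 2 * (E + 1) * b ≤ m * h / 2 := by
        have h8 : 4 * (E + 1) * b ≤ C1 * b := mul_le_mul_of_nonneg_right hC1 hb.le
        linarith
      calc N * (2 * (E + 1) * b) ≤ N * (m * h / 2) := by gcongr
        _ = N * m / 2 * h := by ring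
    calc b * ((E + 1) * (P + 1))
        ≤ b * ((E + 1) * (N1 + 3 + 2 * (N / h))) := by gcongr
      _ = b * ((E + 1) * (N1 + 3)) + b * ((E + 1) * (2 * (N / h))) := by ring
      _ < N * m / 2 + N * m / 2 := by linarith
      _ = N * m := by ring
  have h10 : (E + 1) * (P + 1) < K := by
    have h11 : b * ((E + 1) * (P + 1)) < b * K := by linarith
    exact lt_of_mul_lt_mul_left h11 hb.le
  calc b * (P + 1) + e * P ≤ e * ((E + 1) * (P + 1)) := h1
    _ < e * K := by gcongr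

end Vale.Agent.P181.H59
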