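import Vale.Agent.P181.H59.DesIneq

/-!
# P181, S5: the design exists
-/

set_option autoImplicit false

namespace Vale.Agent.P181.H59

open Finset

/-- star system, certification columns, design: natural numbers only. -/
lemma des_nat (hstr : StrStmt) (hhit : HitStmt) {b a m g n k N N1 : ℕ} {θ : ℝ}
    (hg6 : 6 ≤ g) (hn1 : n * 2 ^ g + 3 ≤ b) (hn2 : b < (n + 1) * 2 ^ g + 3)
    (h10 : 10 * 2 ^ g ≤ n) (hkn : k + (2 ^ g + 2) ≤ n) (hk : 0 < k) (hk2 : min (2 * m) a ≤ k * 2 ^ g)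
    (hθ0 : 0 < θ) (hθ : θ ≤ (1 - (k : ℝ) / ((n : ℝ) - (2 ^ g + 2))) ^ (2 ^ g + 2))
    (hhit1 : 100 * g * 2 ^ g * Real.log (b + 1) ≤ N1 * (θ * Real.exp (-25)))
    (hN : N1 ≤ N) (hnm : n + n ≤ m) (hab : a < b)
    (len : Fin N → ℕ) (hlen : ∀ c, m ≤ len c ∧ len c ≤ 2 * m ∧ len c ≤ a)
    (hroom : b * (N1 + 2 * (N / 2 ^ g + 1) + 1) + (b - a) * (N1 + 2 * (N / 2 ^ g + 1)) <
      (b - a) * ((∑ c, len c) / b + 1)) :
    Design b (n + n) N len := by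
  obtain ⟨S⟩ := hstr g n b (by omega) h10 hn1 hn2
  have hnb : n + n ≤ b := by
    have h1 : n * 2 ≤ n * 2 ^ g := Nat.mul_le_mul_left _ (by
      calc 2 = 2 ^ 1 := rfl
        _ ≤ 2 ^ g := Nat.pow_le_pow_right (by norm_num) (by omega))
    omega
  obtain ⟨A1, hA1⟩ := hhit b g n k N1 θ S hg6 (by omega) hkn hnb hθ0 hθ hhit1
    (fun c => len (Fin.castLE hN c)) (fun c => by
      have h1 := hlen (Fin.castLE hN c)
      exact ⟨by omega, le_trans (le_min h1.2.1 h1.2.2) hk2⟩)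
  exact design_of (e := b - a) S (by omega) hN len (by omega)
    (fun c => hnm.trans (hlen c).1) (fun c => by have := (hlen c).2.2; omega) A1 hA1 hroom

/-- the number of certification columns is large enough. -/
lemma n1_large {C1 g h : ℕ} {c C3 θ L : ℝ} {N1 : ℕ}
    (hC3 : C3 = 100 * Real.exp 25 / Real.exp (-((8 * C1 + 10) / c)))
    (hθ : Real.exp (-((8 * C1 + 10) / c)) ≤ θ) (hN1 : C3 * (g * L) * h ≤ N1) :
    100 * g * h * L ≤ N1 * (θ * Real.exp (-25)) := by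
  calc 100 * g * h * L
      = (C3 * (g * L) * h) * (Real.exp (-((8 * C1 + 10) / c)) * Real.exp (-25)) := by
        rw [hC3, Real.exp_neg 25]
        have h2 := (Real.exp_pos (-((8 * (C1 : ℝ) + 10) / c))).ne'
        have h3 := (Real.exp_pos 25).ne'
        field_simp
    _ ≤ N1 * (θ * Real.exp (-25)) := by
        have : 0 ≤ C3 := by rw [hC3]; positivity
        gcongr

/-- the core of the numbers: all constants fixed. -/
lemma des_core (hstr : StrStmt) (hhit : HitStmt) {ε δ : ℝ} (hε : 0 < ε) (hε2 : ε < 1 / 2)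
    (hδ : 0 < δ) {c E C3 : ℝ} {C1 : ℕ} (hc : c = δ / (2 * (1 + δ))) (hE : E = (1 + δ) / δ)
    (hC1 : 4 * (E + 1) + 64 ≤ C1)
    (hC3 : C3 = 100 * Real.exp 25 / Real.exp (-((8 * C1 + 10) / c))) {b a m : ℕ}
    (hb2 : 2 ≤ b) (hab : (1 + δ) * a ≤ b) (hbm : (b : ℝ) ^ (1 / 2 + ε) ≤ m) (hma : m ≤ a)
    {T s : ℝ} (hT : T = (b : ℝ) ^ (ε / 2)) (hs : s = (b : ℝ) ^ (1 / 2 : ℝ))
    (hT1 : 32 * (E + 1) * (128 * C3 * C1 / ε ^ 2) ≤ T) (hT2 : 56 * (C1 : ℝ) ^ 2 / c ≤ T)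
    (hT3 : 128 * (E + 1) ≤ T)
    (len : Fin ⌊(b : ℝ) ^ (1 - ε)⌋₊ → ℕ) (hlen : ∀ c, m ≤ len c ∧ len c ≤ 2 * m ∧ len c ≤ a) :
    ∃ R : ℕ, R ≤ m ∧ Design b R ⌊(b : ℝ) ^ (1 - ε)⌋₊ len := by
  have hb0 : (0 : ℝ) < b := by exact_mod_cast (show 0 < b by omega)
  have hb1 : (1 : ℝ) ≤ b := by exact_mod_cast (show 1 ≤ b by omega)
  have hδ1 : 0 < 1 + δ := by linarith
  have hc0 : 0 < c := by rw [hc]; positivity
  have hc12 : c ≤ 1 / 2 := by
    rw [hc, div_le_div_iff₀ (by positivity) (by norm_num)]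
    linarith
  have hE1 : 1 ≤ E := by
    rw [hE, le_div_iff₀ hδ]
    linarith
  have hC1pos : (64 : ℝ) ≤ C1 := by linarith
  have hC1n : 64 ≤ C1 := by exact_mod_cast hC1pos
  have hC3pos : 0 < C3 := by rw [hC3]; positivity
  have hT1' : 2 ≤ T := by linarith
  have hTpos : 0 < T := by linarith
  -- powers of b
  have hss : s * s = b := by
    rw [hs, ← Real.rpow_add hb0]
    norm_num
  have hspos : 0 < s := by rw [hs]; positivity
  have hTT : T ^ 2 = (b : ℝ) ^ ε := by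
    rw [hT, ← Real.rpow_natCast, ← Real.rpow_mul hb0.le]
    congr 1
    push_cast
    ring
  have hTs : T ^ 2 ≤ s := by
    rw [hTT, hs]
    exact Real.rpow_le_rpow_of_exponent_le hb1 hε2.le
  have hTs1 : T ≤ s := by
    refine le_trans ?_ hTs
    calc T = T ^ 1 := (pow_one T).symm
      _ ≤ T ^ 2 := pow_le_pow_right₀ (by linarith) (by norm_num)
  have hmb : s * T ^ 2 ≤ m := by
    rw [hTT, hs, ← Real.rpow_add hb0]
    exact hbm
  have hN0 : (b : ℝ) ^ (1 - ε) = b / T ^ 2 := by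
    rw [hTT, Real.rpow_sub hb0, Real.rpow_one]
  have hNge : (b : ℝ) / T ^ 2 - 1 < (⌊(b : ℝ) ^ (1 - ε)⌋₊ : ℕ) := by
    calc (b : ℝ) / T ^ 2 - 1 = (b : ℝ) ^ (1 - ε) - 1 := by rw [hN0]
      _ < _ := Nat.sub_one_lt_floor ((b : ℝ) ^ (1 - ε))
  generalize (⌊(b : ℝ) ^ (1 - ε)⌋₊ : ℕ) = N at len hlen hNge ⊢
  have hmpos : 0 < m := by
    have : (0 : ℝ) < m := lt_of_lt_of_le (by positivity) hmb
    exact_mod_cast this
  have hma' : (m : ℝ) ≤ a := by exact_mod_cast hma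
  have hab2 : (a : ℝ) ≤ (1 - 2 * c) * b := by
    have h1 : 1 - 2 * c = 1 / (1 + δ) := by
      rw [hc]
      field_simp
      ring
    rw [h1, one_div, ← div_eq_inv_mul, le_div_iff₀ hδ1]
    linarith
  have hcb0 : (0 : ℝ) < 2 * c * b := by positivity
  have hab3 : (a : ℝ) < b := by linarith
  have hab4 : a < b := by exact_mod_cast hab3
  -- the choice of g
  obtain ⟨g, hg6, hg1, hg3, hhC⟩ := exists_g hmpos (lt_of_le_of_lt hma hab4) hC1n
  have hg1R : (C1 : ℝ) * b ≤ m * ((2 ^ g : ℕ) : ℝ) := by exact_mod_cast hg1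
  have hg3R : (m : ℝ) * ((2 ^ g : ℕ) : ℝ) < 2 * (C1 * b) := by exact_mod_cast hg3
  have hh64 : 64 ≤ 2 ^ g := le_trans hC1n hhC
  have hhR : (64 : ℝ) ≤ ((2 ^ g : ℕ) : ℝ) := by exact_mod_cast hh64
  have hhpos : (0 : ℝ) < ((2 ^ g : ℕ) : ℝ) := by linarith
  obtain ⟨hTh, hh2⟩ := h_bounds hspos hss (by linarith : 1 ≤ T) hc0 hhpos.le (by linarith) hmb
    hg3R hT2
  have hhb : (2 ^ g : ℕ) ≤ b ∧ 12 * ((2 ^ g : ℕ) : ℝ) ^ 2 ≤ b := by
    have hsq : 64 * ((2 ^ g : ℕ) : ℝ) ≤ ((2 ^ g : ℕ) : ℝ) ^ 2 := by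
      rw [sq]
      exact mul_le_mul_of_nonneg_right hhR hhpos.le
    have hcb : c / 2 * b ≤ (b : ℝ) / 4 := by
      have := mul_le_mul_of_nonneg_right (show c / 2 ≤ 1 / 4 by linarith) hb0.le
      linarith
    constructor
    · have : ((2 ^ g : ℕ) : ℝ) ≤ b := by linarith
      exact_mod_cast this
    · linarith
  -- the number of stars
  obtain ⟨n, hn1, hn2⟩ : ∃ n : ℕ, n * 2 ^ g + 3 ≤ b ∧ b < (n + 1) * 2 ^ g + 3 := by
    refine ⟨(b - 3) / 2 ^ g, ?_, ?_⟩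
    · have h1 := Nat.div_mul_le_self (b - 3) (2 ^ g)
      omega
    · have h1 := Nat.lt_div_mul_add (a := b - 3) (b := 2 ^ g) (by omega)
      have h2 : ((b - 3) / 2 ^ g + 1) * 2 ^ g = (b - 3) / 2 ^ g * 2 ^ g + 2 ^ g := by ring
      omega
  have hn2R : (b : ℝ) < (n + 1) * ((2 ^ g : ℕ) : ℝ) + 3 := by exact_mod_cast hn2
  -- the filler
  obtain ⟨k, hk0, hk1, hk2⟩ : ∃ k : ℕ, 0 < k ∧ k * 2 ^ g ≤ min (2 * m) a + 2 ^ g ∧
      min (2 * m) a ≤ k * 2 ^ g := by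
    refine ⟨min (2 * m) a / 2 ^ g + 1, Nat.succ_pos _, ?_, ?_⟩
    · rw [add_mul, one_mul]
      exact Nat.add_le_add_right (Nat.div_mul_le_self _ _) _
    · have h1 := Nat.lt_div_mul_add (a := min (2 * m) a) (b := 2 ^ g) (by omega)
      rw [add_mul, one_mul]
      omega
  have hk1R : (k : ℝ) * ((2 ^ g : ℕ) : ℝ) ≤ (min (2 * m) a : ℕ) + ((2 ^ g : ℕ) : ℝ) := by
    exact_mod_cast hk1
  have hl1 : ((min (2 * m) a : ℕ) : ℝ) ≤ 2 * m := by
    have : min (2 * m) a ≤ 2 * m := min_le_left _ _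
    exact_mod_cast this
  have hl2 : ((min (2 * m) a : ℕ) : ℝ) ≤ a := by
    have : min (2 * m) a ≤ a := min_le_right _ _
    exact_mod_cast this
  obtain ⟨hXpos, hx0, hx1, hx2⟩ := x_bounds hb0 hc0 hc12 (by linarith) hhR hh2
    (Nat.cast_nonneg k) hab2 hma' hg3R hn2R hk1R hl1 hl2
  have hkn : k + (2 ^ g + 2) ≤ n := by
    have h1 : (k : ℝ) < n - (((2 ^ g : ℕ) : ℝ) + 2) := by
      have h2 : (k : ℝ) / (n - (((2 ^ g : ℕ) : ℝ) + 2)) < 1 := by linarith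
      rw [div_lt_one hXpos] at h2
      exact h2
    have h2 : (k : ℝ) + (((2 ^ g : ℕ) : ℝ) + 2) < n := by linarith
    have h3 : k + (2 ^ g + 2) < n := by exact_mod_cast h2
    exact h3.le
  have hθ1 : Real.exp (-((8 * C1 + 10) / c)) ≤
      (1 - (k : ℝ) / ((n : ℝ) - (((2 ^ g : ℕ) : ℝ) + 2))) ^ (2 ^ g + 2) :=
    theta_ge hc0 hx0 hx1 (by push_cast at hx2 ⊢; exact hx2)
  have hθpos := lt_of_lt_of_le (Real.exp_pos _) hθ1
  -- the number of certification columns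
  have hlogb : 0 ≤ Real.log ((b : ℝ) + 1) := Real.log_nonneg (by linarith)
  obtain ⟨N1, hN1ge, hN1le⟩ : ∃ N1 : ℕ,
      C3 * (g * Real.log (b + 1)) * ((2 ^ g : ℕ) : ℝ) ≤ N1 ∧
      (N1 : ℝ) ≤ C3 * (g * Real.log (b + 1)) * ((2 ^ g : ℕ) : ℝ) + 1 :=
    ⟨_, Nat.le_ceil _, (Nat.ceil_lt_add_one (by positivity)).le⟩
  have hhit1 := n1_large hC3 hθ1 hN1ge
  have hglg := log_bounds hε hb2 hhb.1 hT
  have hsmall : (E + 1) * ((N1 : ℝ) + 3) < s / 8 :=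
    n1_small hE1 hC3pos (by linarith) hε (by linarith) hspos hhpos.le hTh hglg hN1le hT1
      (by linarith)
  obtain ⟨hkey, hN1N⟩ := n_bounds hspos hss hT1' hTs hhpos (by linarith) (by linarith)
    (Nat.cast_nonneg N1) hTh hNge hg1R (by linarith) hsmall
  have hN1N' : N1 ≤ N := by exact_mod_cast hN1N
  have hnm : n + n ≤ m := by
    have h1 : (n + n) * 2 ^ g ≤ m * 2 ^ g := by
      calc (n + n) * 2 ^ g = 2 * (n * 2 ^ g) := by ring
        _ ≤ 2 * b := by omega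
        _ ≤ C1 * b := Nat.mul_le_mul_right _ (by omega)
        _ ≤ m * 2 ^ g := hg1
    exact Nat.le_of_mul_le_mul_right h1 (by omega)
  have h10 : 10 * 2 ^ g ≤ n := by
    have h1 : (10 : ℝ) * ((2 ^ g : ℕ) : ℝ) * ((2 ^ g : ℕ) : ℝ) ≤ n * ((2 ^ g : ℕ) : ℝ) := by
      have e1 : (10 : ℝ) * ((2 ^ g : ℕ) : ℝ) * ((2 ^ g : ℕ) : ℝ) =
        10 * ((2 ^ g : ℕ) : ℝ) ^ 2 := by ring
      have e2 : ((n : ℝ) + 1) * ((2 ^ g : ℕ) : ℝ) = n * ((2 ^ g : ℕ) : ℝ) + ((2 ^ g : ℕ) : ℝ) := by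
        ring
      have hsq : 64 * ((2 ^ g : ℕ) : ℝ) ≤ ((2 ^ g : ℕ) : ℝ) ^ 2 := by
        rw [sq]
        exact mul_le_mul_of_nonneg_right hhR hhpos.le
      rw [e1]
      have := hhb.2
      linarith
    have h2 := le_of_mul_le_mul_right h1 hhpos
    exact_mod_cast h2
  have hcast : ((2 ^ g : ℕ) : ℝ) = 2 ^ g := by push_cast; rfl
  rw [hcast] at hθpos hhit1
  refine ⟨n + n, hnm, des_nat (θ := (1 - (k : ℝ) / ((n : ℝ) - (2 ^ g + 2))) ^ (2 ^ g + 2))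
    hstr hhit hg6 hn1 hn2 h10 hkn hk0 hk2 hθpos le_rfl hhit1 hN1N' hnm hab4 len hlen ?_⟩
  -- the room
  have hsumlen : N * m ≤ ∑ c, len c := by
    calc N * m = ∑ _c : Fin N, m := by simp
      _ ≤ ∑ c, len c := sum_le_sum fun c _ => (hlen c).1
  generalize (∑ c, len c) = sl at hsumlen ⊢
  have hdiv : (sl : ℝ) ≤ b * (((sl / b : ℕ) : ℝ) + 1) := by
    have h1 := Nat.lt_div_mul_add (a := sl) (b := b) (by omega)
    have h2 : sl ≤ b * (sl / b + 1) := by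
      rw [mul_add, mul_one, mul_comm b]
      exact h1.le
    exact_mod_cast h2
  have hNh : (((N / 2 ^ g : ℕ) : ℝ)) ≤ N / ((2 ^ g : ℕ) : ℝ) := Nat.cast_div_le
  have heR : ((b - a : ℕ) : ℝ) = (b : ℝ) - a := by
    rw [Nat.cast_sub hab4.le]
  have hEe : (b : ℝ) ≤ E * ((b : ℝ) - a) := by
    rw [hE, div_mul_eq_mul_div, le_div_iff₀ hδ]
    have e1 : (1 + δ) * ((b : ℝ) - a) = b * δ + (b - (1 + δ) * a) := by ring
    rw [e1]
    linarith
  have hgoal := room (K := ((sl / b : ℕ) : ℝ) + 1)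
    (P := (N1 : ℝ) + 2 * (((N / 2 ^ g : ℕ) : ℝ) + 1)) hb0 hhpos (by linarith) (Nat.cast_nonneg N)
    (show (0 : ℝ) < (b : ℝ) - a by linarith) hEe (by linarith) hg1R (by positivity)
    (by linarith) hkey (by
      have h9 : (N : ℝ) * m ≤ sl := by exact_mod_cast hsumlen
      linarith)
  have hgoal2 : ((b * (N1 + 2 * (N / 2 ^ g + 1) + 1) + (b - a) * (N1 + 2 * (N / 2 ^ g + 1)) : ℕ) : ℝ)
      < (((b - a) * (sl / b + 1) : ℕ) : ℝ) := by
    push_cast [heR] at hgoal ⊢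
    exact hgoal
  exact_mod_cast hgoal2

/-- **[S5-DES]** -/
theorem des (hstr : StrStmt) (hhit : HitStmt) : DesignStmt := by
  intro ε δ hε hδ
  rcases lt_or_ge ε (1 / 2) with hε2 | hε2
  · set E : ℝ := (1 + δ) / δ with hE
    set c : ℝ := δ / (2 * (1 + δ)) with hc
    set C1 : ℕ := ⌈4 * (E + 1) + 64⌉₊ with hC1
    set C3 : ℝ := 100 * Real.exp 25 / Real.exp (-((8 * (C1 : ℝ) + 10) / c)) with hC3
    have htend : Filter.Tendsto (fun b : ℕ => ((b : ℝ) ^ (ε / 2))) Filter.atTop Filter.atTop :=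
      (tendsto_rpow_atTop (by linarith)).comp tendsto_natCast_atTop_atTop
    have hev := ((htend.eventually_ge_atTop (32 * (E + 1) * (128 * C3 * C1 / ε ^ 2))).and
      ((htend.eventually_ge_atTop (56 * (C1 : ℝ) ^ 2 / c)).and
      ((htend.eventually_ge_atTop (128 * (E + 1))).and (Filter.eventually_ge_atTop 2))))
    obtain ⟨b0, hb0⟩ := Filter.eventually_atTop.1 hev
    refine ⟨b0, fun b a m hb hab hbm hma len hlen => ?_⟩
    obtain ⟨h1, h2, h3, h4⟩ := hb0 b hb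
    exact des_core hstr hhit hε hε2 hδ hc hE (Nat.le_ceil _) hC3 h4 hab hbm hma rfl rfl h1 h2 h3
      len hlen
  · refine ⟨1, fun b a m hb hab hbm hma len hlen => ?_⟩
    exfalso
    have hb1 : (1 : ℝ) ≤ b := by exact_mod_cast hb
    have h1 : (b : ℝ) ≤ (b : ℝ) ^ (1 / 2 + ε) := by
      calc (b : ℝ) = (b : ℝ) ^ (1 : ℝ) := (Real.rpow_one _).symm
        _ ≤ _ := Real.rpow_le_rpow_of_exponent_le hb1 (by linarith)
    have h2 : (m : ℝ) ≤ a := by exact_mod_cast hma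
    have h3 : (0 : ℝ) < a := by linarith
    have h4 : 0 < δ * a := by positivity
    linarith

end Vale.Agent.P181.H59
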