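import Vale.Agent.P181.H59.Des

/-!
# P181, S5: the numbers of the design
-/

set_option autoImplicit false

namespace Vale.Agent.P181.H59

open Finset

lemma exp_neg_le_one_sub {c x : ℝ} (hc : 0 < c) (hx : 0 ≤ x) (hx1 : x ≤ 1 - c) :
    Real.exp (-(x / c)) ≤ 1 - x := by
  have h1 : 0 < 1 + x / c := by positivity
  have h2 : 1 + x / c ≤ Real.exp (x / c) := by
    have := Real.add_one_le_exp (x / c)
    linarith
  have h3 : 1 ≤ (1 - x) * (1 + x / c) := by
    have h4 : (1 - x) * (1 + x / c) = 1 + (x / c) * (1 - c - x) := by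
      field_simp
      ring
    rw [h4]
    have : 0 ≤ (x / c) * (1 - c - x) := mul_nonneg (by positivity) (by linarith)
    linarith
  have h5 : 0 < 1 - x := by linarith
  rw [Real.exp_neg, inv_le_comm₀ (Real.exp_pos _) h5]
  calc (1 - x)⁻¹ ≤ 1 + x / c := by
        rw [inv_le_iff_one_le_mul₀ h5]
        linarith [mul_comm (1 - x) (1 + x / c)]
    _ ≤ _ := h2

/-- the filler probability is bounded below. -/
lemma theta_ge {c x C : ℝ} {j : ℕ} (hc : 0 < c) (hx : 0 ≤ x) (hx1 : x ≤ 1 - c)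
    (hC : x * j ≤ C) : Real.exp (-(C / c)) ≤ (1 - x) ^ j := by
  calc Real.exp (-(C / c)) ≤ Real.exp (-(x / c)) ^ j := by
        rw [← Real.exp_nat_mul]
        apply Real.exp_le_exp.2
        have : (j : ℝ) * -(x / c) = -((x * j) / c) := by ring
        rw [this]
        apply neg_le_neg
        gcongr
    _ ≤ (1 - x) ^ j := by
        gcongr
        exact exp_neg_le_one_sub hc hx hx1

/-- real inequalities for the number of certification columns. -/
lemma n1_small {E C3 C1 ε s T h g lg N1 : ℝ} (hE : 1 ≤ E) (hC3 : 0 < C3) (hC1 : 1 ≤ C1)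
    (hε : 0 < ε) (hT : 1 ≤ T) (hs : 0 < s) (hh : 0 ≤ h) (hTh : T ^ 2 * h ≤ 2 * C1 * s)
    (hglg : g * lg ≤ 64 * T / ε ^ 2) (hN1 : N1 ≤ C3 * (g * lg) * h + 1)
    (hT2 : 32 * (E + 1) * (128 * C3 * C1 / ε ^ 2) ≤ T) (hs2 : 128 * (E + 1) ≤ s) :
    (E + 1) * (N1 + 3) < s / 8 := by
  have hT0 : 0 < T := by linarith
  have h1 : N1 + 3 ≤ C3 * (64 * T / ε ^ 2) * h + 4 := by
    have : C3 * (g * lg) * h ≤ C3 * (64 * T / ε ^ 2) * h := by gcongr
    linarith
  have h2 : T * h ≤ 2 * C1 * s / T := by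
    rw [le_div_iff₀ hT0]
    calc T * h * T = T ^ 2 * h := by ring
      _ ≤ _ := hTh
  have h3 : C3 * (64 * T / ε ^ 2) * h ≤ (128 * C3 * C1 / ε ^ 2) * (s / T) := by
    calc C3 * (64 * T / ε ^ 2) * h = (64 * C3 / ε ^ 2) * (T * h) := by ring
      _ ≤ (64 * C3 / ε ^ 2) * (2 * C1 * s / T) := by gcongr
      _ = _ := by ring
  set C5 := 128 * C3 * C1 / ε ^ 2 with hC5
  have hC5pos : 0 < C5 := by positivity
  have h4 : (E + 1) * (C5 * (s / T)) ≤ s / 32 := by
    have h5 : (E + 1) * (C5 * (s / T)) = ((E + 1) * C5) * s / T := by ring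
    rw [h5, div_le_div_iff₀ hT0 (by norm_num)]
    have h6 : 32 * (E + 1) * C5 * s ≤ T * s := by gcongr
    linarith
  have h7 : (E + 1) * 4 ≤ s / 32 := by linarith
  have h8 : (E + 1) * (N1 + 3) ≤ (E + 1) * (C5 * (s / T) + 4) := by
    have : N1 + 3 ≤ C5 * (s / T) + 4 := by linarith
    have hE1 : 0 ≤ E + 1 := by linarith
    exact mul_le_mul_of_nonneg_left this hE1
  have h9 : (E + 1) * (C5 * (s / T) + 4) ≤ s / 32 + s / 32 := by
    rw [mul_add]
    exact add_le_add h4 h7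
  linarith

end Vale.Agent.P181.H59
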