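import Vale.Agent.P181.H59.DesMain
import Vale.Agent.P181.H188.Str
import Vale.Agent.P181.H328.Seq
import Vale.Agent.P181.H896.Pick
import Vale.Agent.P181.H261.Mat5
import Vale.Agent.P181.H914.Num5

/-!
# P181, S5: assembly
-/

set_option autoImplicit false

namespace Vale.Agent.P181.H59

/-- **(S5)** Foulkes' inequality for all `b ≥ (1 + δ) a` and `λ_1 ≤ a b ^ (1/2 - ε)`. -/
theorem main : MainStmt :=
  Vale.Agent.P181.H914.num_stmt5
    (des Vale.Agent.P181.H188.strStmt
      (Vale.Agent.P181.H328.Seq.seq_stmt Vale.Agent.P181.H896.pick_stmt))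
    Vale.Agent.P181.H261.mat_stmt

end Vale.Agent.P181.H59
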