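import Vale.Agent.P181.H59.All10g

/-!
# P181, S10: partitions with a short first row have enough boxes in the first `b` columns
-/

set_option autoImplicit false

namespace Vale.Agent.P181.H59

open Vale.Agent.P181 Vale.Agent.P181.H280 Vale.Agent.P181.T7 Vale.Agent.P181.S10

/-- `λ_1 ≤ (b - a) a ^ (1 - ε)` implies the condition on the first `b` columns. -/
theorem cond_of_short {a b n : ℕ} {ε : ℝ} (ha : 1 ≤ a) (hab : a ≤ b) (lam : Fin n → ℕ)
    (hsum : ∑ i, lam i = a * b) (hz : ∀ i : Fin n, a ≤ (i : ℕ) → lam i = 0)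
    (hl : ∀ i, (lam i : ℝ) ≤ ((b : ℝ) - a) * (a : ℝ) ^ (1 - ε)) :
    (b : ℝ) ^ 2 * (a : ℝ) ^ ε ≤ ((b : ℝ) - a) * ∑ i, ((min b (lam i) : ℕ) : ℝ) := by
  have ha0 : (0 : ℝ) < a := by exact_mod_cast ha
  have hb0 : (0 : ℝ) < b := by exact_mod_cast lt_of_lt_of_le ha hab
  set X : ℝ := ((b : ℝ) - a) * (a : ℝ) ^ (1 - ε) with hX
  -- some row has at least b boxes
  have hXb : (b : ℝ) ≤ X := by
    by_contra hcon
    rw [not_le] at hcon
    have h1 : ∀ i, lam i < b := fun i => by
      have : (lam i : ℝ) < b := lt_of_le_of_lt (hl i) hcon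
      exact_mod_cast this
    have h2 : ∑ i, lam i < a * b := by
      calc ∑ i, lam i = ∑ i ∈ Finset.univ.filter (fun i : Fin n => (i : ℕ) < a), lam i := by
            symm
            apply Finset.sum_subset (Finset.subset_univ _)
            intro i _ hi
            rw [Finset.mem_filter] at hi
            push Not at hi
            exact hz i (hi (Finset.mem_univ _))
        _ < ∑ i ∈ Finset.univ.filter (fun i : Fin n => (i : ℕ) < a), b := by
            apply Finset.sum_lt_sum_of_nonempty
            · by_contra hne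
              rw [Finset.not_nonempty_iff_eq_empty] at hne
              have h3 : ∑ i, lam i = 0 := by
                apply Finset.sum_eq_zero
                intro i _
                apply hz
                by_contra hlt
                have : i ∈ Finset.univ.filter (fun i : Fin n => (i : ℕ) < a) := by
                  rw [Finset.mem_filter]
                  exact ⟨Finset.mem_univ _, by omega⟩
                rw [hne] at this
                simp at this
              rw [h3] at hsum
              have h4 : 0 < a * b := Nat.mul_pos ha (lt_of_lt_of_le ha hab)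
              omega
            · intro i _
              exact h1 i
        _ = (Finset.univ.filter (fun i : Fin n => (i : ℕ) < a)).card * b := by
            rw [Finset.sum_const, smul_eq_mul]
        _ ≤ a * b := by
            apply Nat.mul_le_mul_right
            rw [Fin.card_filter_val_lt]
            exact min_le_right _ _
    omega
  have hXpos : 0 < X := by linarith
  have hmin : ∀ i, (lam i : ℝ) * b / X ≤ ((min b (lam i) : ℕ) : ℝ) := by
    intro i
    rw [Nat.cast_min, div_le_iff₀ hXpos]
    rcases le_total (b : ℝ) (lam i) with h | h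
    · rw [min_eq_left h]
      calc (lam i : ℝ) * b ≤ X * b := by
            apply mul_le_mul_of_nonneg_right (hl i) hb0.le
        _ = b * X := mul_comm _ _
    · rw [min_eq_right h]
      exact mul_le_mul_of_nonneg_left hXb (Nat.cast_nonneg _)
  have hS : (a : ℝ) * b * b / X ≤ ∑ i, ((min b (lam i) : ℕ) : ℝ) := by
    calc (a : ℝ) * b * b / X = ∑ i, (lam i : ℝ) * b / X := by
          have h1 : (∑ i, (lam i : ℝ)) = (a : ℝ) * b := by exact_mod_cast hsum
          rw [← h1, Finset.sum_mul, Finset.sum_div]
      _ ≤ _ := Finset.sum_le_sum fun i _ => hmin i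
  have hba : (0 : ℝ) < (b : ℝ) - a := by
    by_contra hcon
    rw [not_lt] at hcon
    have : X ≤ 0 := mul_nonpos_of_nonpos_of_nonneg hcon (by positivity)
    linarith
  have hpow : (a : ℝ) ^ (1 - ε) = a / (a : ℝ) ^ ε := by
    rw [Real.rpow_sub ha0, Real.rpow_one]
  calc (b : ℝ) ^ 2 * (a : ℝ) ^ ε = ((b : ℝ) - a) * ((a : ℝ) * b * b / X) := by
        rw [hX, hpow]
        have h1 : (a : ℝ) ^ ε ≠ 0 := by positivity
        have h2 := hba.ne'
        field_simp
    _ ≤ _ := mul_le_mul_of_nonneg_left hS hba.le

/-- **The final form**: all `b ≥ a`, all numbers of rows, both conditions. -/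
theorem final10 (h : Main10gAll) (ε : ℝ) (hε : 0 < ε) :
    ∃ a₀ : ℕ, ∀ a : ℕ, a₀ ≤ a → ∀ (b n : ℕ) (lam : Fin n → ℕ), a ≤ b →
      ((b : ℝ) ^ 2 * (a : ℝ) ^ ε ≤ ((b : ℝ) - a) * ∑ i, ((min b (lam i) : ℕ) : ℝ) ∨
        ∀ i, (lam i : ℝ) ≤ ((b : ℝ) - a) * (a : ℝ) ^ (1 - ε)) →
      plethMult a b n lam ≤ plethMult b a n lam := by
  obtain ⟨a₀, H⟩ := h ε hε
  refine ⟨max a₀ 1, fun a ha b n lam hab hc => ?_⟩
  rcases hc with hc | hc
  · exact H a (le_trans (le_max_left _ _) ha) b n lam hab hc
  · by_cases h0 : plethMult a b n lam = 0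
    · rw [h0]
      exact Nat.zero_le _
    · obtain ⟨-, hsum, hz⟩ := H530.zero_stmt a b n lam h0
      exact H a (le_trans (le_max_left _ _) ha) b n lam hab
        (cond_of_short (le_trans (le_max_right _ _) ha) hab lam hsum hz hc)

end Vale.Agent.P181.H59
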