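import Vale.Agent.P181.H59.Des6All
import Vale.Agent.P181.H188.Num10
import Vale.Agent.P181.H59.Dual
import Vale.Agent.P181.H59.All10g
import Vale.Agent.P181.H59.Short10
import Vale.Agent.P181.H463.Big

/-!
# P181, S10: assembly
-/

set_option autoImplicit false

namespace Vale.Agent.P181.H59

open Vale.Agent.P181 Vale.Agent.P181.H280

theorem main10g : S10.Main10g := H188.num10g Des6All.des_all H261.mat_stmt mat_dual

theorem main10gAll : S10.Main10gAll := all10g main10g H463.big_stmt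

/-- **S10, final form.** -/
theorem fin10 (ε : ℝ) (hε : 0 < ε) :
    ∃ a₀ : ℕ, ∀ a : ℕ, a₀ ≤ a → ∀ (b n : ℕ) (lam : Fin n → ℕ), a ≤ b →
      ((b : ℝ) ^ 2 * (a : ℝ) ^ ε ≤ ((b : ℝ) - a) * ∑ i, ((min b (lam i) : ℕ) : ℝ) ∨
        ∀ i, (lam i : ℝ) ≤ ((b : ℝ) - a) * (a : ℝ) ^ (1 - ε)) →
      plethMult a b n lam ≤ plethMult b a n lam :=
  final10 main10gAll ε hε

end Vale.Agent.P181.H59
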