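import Vale.Agent.P181.H59.AllN6
import Vale.Agent.P181.H261.Tail6

/-!
# P181, hand-in B, S6 form
-/

set_option autoImplicit false

namespace Vale.Agent.P181.H59

open Vale.Agent.P181 Vale.Agent.P181.H280 Vale.Agent.P181.T7

theorem finB6 (ε δ : ℝ) (hε : 0 < ε) (hδ : 0 < δ) :
    ∃ a₀ : ℕ, ∀ a : ℕ, a₀ ≤ a → ∀ (b n : ℕ) (lam : Fin n → ℕ), (1 + δ) * (a : ℝ) ≤ b →
      ((a : ℝ) ^ ε * b ≤ cells ⌈(a : ℝ) ^ ε⌉₊ lam ∨
        ∀ i, (lam i : ℝ) ≤ a * (b : ℝ) ^ (1 - ε)) →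
      plethMult a b n lam ≤ plethMult b a n lam := by
  obtain ⟨a₁, h1⟩ := H261.tail6_all Des6All.lb9 ε δ hε hδ
  obtain ⟨a₂, h2⟩ := short6_all_n ε δ hε hδ
  refine ⟨max a₁ a₂, fun a ha b n lam hb hc => ?_⟩
  rcases hc with hc | hc
  · exact h1 a (le_trans (le_max_left _ _) ha) b n lam hb hc
  · exact h2 a (le_trans (le_max_right _ _) ha) b n lam hb hc

end Vale.Agent.P181.H59
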