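import Mathlib

/-!
# P181, S5: the star design (combinatorial specification)

For every b >= (1+delta) a and every lambda with lambda_1 <= a b^(1/2-eps): marker columns with
trivial stabiliser in the symmetric group of the b letters.
-/

set_option autoImplicit false

namespace Vale.Agent.P181.H59

open Finset

/-- `A` contains distinct representatives of the stars. -/
def HasSDR {ι α : Type} (st : ι → Finset α) (A : Finset α) : Prop :=
  ∃ φ : ι → α, Function.Injective φ ∧ ∀ i, φ i ∈ A ∧ φ i ∈ st i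

/-- A star system: `n` disjoint `L`-stars and `n` disjoint `M`-stars on the letters `Fin b`, every
star contains every one of the `2 ^ g` colours and at most two further letters, an `L`-star and an
`M`-star share at most one letter, and only the identity permutes the stars. -/
structure Sys (b g n : ℕ) where
  col : Fin b → (Fin g → Bool)
  st : Fin n ⊕ Fin n → Finset (Fin b)
  disjL : ∀ y y' : Fin n, y ≠ y' → Disjoint (st (Sum.inl y)) (st (Sum.inl y'))
  disjM : ∀ z z' : Fin n, z ≠ z' → Disjoint (st (Sum.inr z)) (st (Sum.inr z'))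
  inter : ∀ y z : Fin n, (st (Sum.inl y) ∩ st (Sum.inr z)).card ≤ 1
  colour : ∀ i (κ : Fin g → Bool), ∃ p ∈ st i, col p = κ
  size : ∀ i, (st i).card ≤ 2 ^ g + 2
  rigid : ∀ ρ : Equiv.Perm (Fin b), (∀ i, ∃ j, (st i).image ρ = st j) → ρ = 1

/-- **[S5-STR]** star systems exist. -/
def StrStmt : Prop :=
  ∀ g n b : ℕ, 5 ≤ g → 10 * 2 ^ g ≤ n → n * 2 ^ g + 3 ≤ b → b < (n + 1) * 2 ^ g + 3 →
    Nonempty (Sys b g n)

/-- the certification columns: exact sizes, distinct representatives, and every small set that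
contains no star is missed by one of the columns. -/
def Cert {b g n N : ℕ} (S : Sys b g n) (len : Fin N → ℕ) (A : Fin N → Finset (Fin b)) : Prop :=
  (∀ c, (A c).card = len c) ∧ (∀ c, HasSDR S.st (A c)) ∧
    ∀ T : Finset (Fin b), T.card ≤ 2 ^ g + 2 → (∀ i, ¬ S.st i ⊆ T) → ∃ c, Disjoint (A c) T

/-- **[S5-HIT]** certification columns exist. -/
def HitStmt : Prop :=
  ∀ (b g n k N : ℕ) (θ : ℝ) (S : Sys b g n), 6 ≤ g → 2 ^ g + 2 < n → k + (2 ^ g + 2) ≤ n →
    n + n ≤ b → 0 < θ → θ ≤ (1 - (k : ℝ) / ((n : ℝ) - (2 ^ g + 2))) ^ (2 ^ g + 2) →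
    100 * g * 2 ^ g * Real.log (b + 1) ≤ N * (θ * Real.exp (-25)) →
    ∀ len : Fin N → ℕ, (∀ c, n + n ≤ len c ∧ len c ≤ k * 2 ^ g) →
    ∃ A : Fin N → Finset (Fin b), Cert S len A

/-- the letters available to a star when the colour bit `u` has to be `β` for `L`-stars (and
different from `β` for `M`-stars). -/
def av {b g n : ℕ} (S : Sys b g n) (u : Fin g) (β : Bool) : Fin n ⊕ Fin n → Finset (Fin b)
  | Sum.inl y => (S.st (Sum.inl y)).filter fun p => S.col p u = β
  | Sum.inr z => (S.st (Sum.inr z)).filter fun p => S.col p u ≠ β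

/-- the probability that no picked letter is in `T`. -/
noncomputable def pick {b g n : ℕ} (S : Sys b g n) (T : Finset (Fin b)) : ℝ :=
  (∑ u : Fin g, ∑ β : Bool, ∏ i, (((av S u β i \ T).card : ℝ) / (av S u β i).card)) / (2 * g)

/-- **[S5-PICK]** lower bound for the probability. -/
def PickStmt : Prop :=
  ∀ (b g n D : ℕ) (S : Sys b g n) (T : Finset (Fin b)), 6 ≤ g → 0 < n → T.card ≤ 2 ^ g + 2 →
    1 ≤ D → (∀ i, D ≤ (S.st i \ T).card) →
    Real.exp (-25) * D / (2 * g * 2 ^ g) ≤ pick S T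

/-- **[S5-SEQ]** independent samples (picks and `k` whole `L`-stars as filler) and union bound. -/
def SeqStmt : Prop := PickStmt → HitStmt

/-- the number of columns containing a letter. -/
def dgr {ι α : Type} [Fintype ι] [DecidableEq α] (A : ι → Finset α) (p : α) : ℕ :=
  (univ.filter fun c => p ∈ A c).card

/-- **[S5-FILL]** completion with exact degrees, columns of any length up to `|α| - e`. -/
def FillStmt : Prop :=
  ∀ (ι α : Type) [Fintype ι] [DecidableEq ι] [Fintype α] [DecidableEq α] (len : ι → ℕ)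
    (G : ι → Finset α) (gd : α → ℕ) (κ pmax e : ℕ),
    (∀ c, (G c).card ≤ len c) → (∀ c, len c + e ≤ Fintype.card α) →
    (∀ p, dgr G p ≤ pmax) → (∀ p, κ ≤ gd p ∧ gd p ≤ κ + 1) →
    ∑ p, gd p = ∑ c, len c → Fintype.card α * (pmax + 1) + e * pmax < e * (κ + 1) →
    ∃ A : ι → Finset α, (∀ c, G c ⊆ A c) ∧ (∀ c, (A c).card = len c) ∧ ∀ p, dgr A p = gd p

/-- **The design**: `R` stars on `Fin b`, and for every balanced degree function a family of
columns of the given lengths, with these degrees, all with distinct representatives, such that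
every non-identity permutation of the letters makes one of the columns miss one of the stars. -/
def Design (b R N : ℕ) (len : Fin N → ℕ) : Prop :=
  ∃ st : Fin R → Finset (Fin b), ∀ gd : Fin b → ℕ, (∀ p q, gd p ≤ gd q + 1) →
    ∑ p, gd p = ∑ c, len c →
    ∃ A : Fin N → Finset (Fin b), (∀ c, (A c).card = len c) ∧ (∀ p, dgr A p = gd p) ∧
      (∀ c, HasSDR st (A c)) ∧
      ∀ ρ : Equiv.Perm (Fin b), ρ ≠ 1 → ∃ c i, Disjoint ((A c).image ρ) (st i)

/-- **[S5-DES]** the design exists (from [S5-STR], [S5-HIT], [S5-FILL]). -/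
def DesignStmt : Prop :=
  ∀ ε δ : ℝ, 0 < ε → 0 < δ → ∃ b0 : ℕ, ∀ b a m : ℕ, b0 ≤ b → (1 + δ) * a ≤ b →
    (b : ℝ) ^ (1 / 2 + ε) ≤ m → m ≤ a →
    ∀ len : Fin ⌊(b : ℝ) ^ (1 - ε)⌋₊ → ℕ, (∀ c, m ≤ len c ∧ len c ≤ 2 * m ∧ len c ≤ a) →
    ∃ R : ℕ, R ≤ m ∧ Design b R ⌊(b : ℝ) ^ (1 - ε)⌋₊ len

end Vale.Agent.P181.H59
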